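import Vale.Agent.P141.H401.CutData
import Vale.Agent.P141.H511.SeamZ

/-!
# P141, line (A): skeleton of the gap part, `CSt NZ`

Letters of `H511.SeamZ`: `BL`, `CL` labelled functions of `b`, `C`; `SV L e (VL l K)` the slot
`√l K⁻¹`; `YW` the flow slot (sign minus); `K = KT l u` of the full `u`.  `C` is divided by `√ez`.

* `cCz` : the cap `2 √√(Lm s)` of `C / √ez`; `lsz = t ^ (-8 (c + d))` : the loss;
* `ZCap`, `ZFam`, `ZGap`, `ZMass`, `ZLight`, `ZFlow`, `ZCrude` : the fields, hypothesis by hypothesis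
  of `H555.tzX_lab'`, with monomials; `ZT` all of them; `ZD` the bundle of the class;
* leaves `MkT Z` : the definite families `cA`, `cb`, `mC` have the field `Z`; `mkZ` : together
  `MkSt ZD`;
* leaf `TileZ` : the price of one tile from `ZT`; `partF_NZ : TileZ → PartF ZD NZ`;
* `cst_NZ : MkT ZCap → .. → MkT ZCrude → TileZ → CSt NZ`.
-/

namespace Vale.Agent.P141.H331

open Finset Matrix Vale.Agent.P075 Vale.Agent.P141.PL Vale.Agent.P141.PL.H588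
open Vale.Agent.P141.PL.H804 Vale.Agent.P141.H958 Vale.Agent.P141.H338 Vale.Agent.P141.H609
open Vale.Agent.P141.H971 (Fam0)
open Vale.Agent.P141.H736 (Path)
open Vale.Agent.P141.H576 (WZ)
open Vale.Agent.P141.H822 (SV VL)
open Vale.Agent.P141.H511 (BL CL YW)
open Vale.Agent.P141.H677 (ndZ KT rt sN)
open Vale.Agent.P141.PL.H315 (Tri)
open Vale.Agent.P141.H48 (US ES BSl)
open Vale.Agent.P141.H401 (NS StX Bun PartX PartY PartF NZ PartQ MkSt CSt cA cb mC)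

noncomputable section

open scoped Classical

/-- the loss -/
def lsz (p : H401.Num) : ℝ := p.t ^ (-(8 * (p.c + p.d)))

/-- cap of `C / √ez` on the alive nodes (`H618.capC_alive`) -/
def cCz (p : H401.Num) (s : ℝ) : ℝ := 2 * √(√(p.Lm * s))

/-- properties of the families on one tile `t0` of points `x0`; the constant is `p.CD` -/
abbrev ZP : Type 1 :=
  ∀ (ι : Type) [Fintype ι] [DecidableEq ι], H401.Num → ℤ → ℕ → Pt → ℝ → ℝ → Tri → (ℤ → ℤ → ι → ℝ) →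
    ℕ → (ι → ℤ) → ℤ → (ℤ → ℕ → ℤ → ℤ → ℝ) → (ℤ → ℕ → ℤ → ℤ → ι → ℝ) →
    (ℤ → ℕ → ℤ → ℤ → ι → ℝ) → Prop

/-- **Field 1: caps of the alive nodes** (205, 80: 576 `StatZ`; `C`: 618). -/
def ZCap : ZP := fun _ _ _ p o K x s r U _ L e t0 A b C =>
  (∀ i ∈ iv K t0, ∀ k ∈ Icc 1 K, ∀ m ∈ sN (p.al U K) o K (cx K x) i k,
    Cap k m.1 m.2.1 (p.th s r) (A i k)) ∧
  (∀ i ∈ iv K t0, ∀ k ∈ Icc 1 K, ∀ m ∈ sN (p.al U K) o K (cx K x) i k,
    CapR L k m.2.1 m.2.2 (p.th s r) (BL e (b i k))) ∧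
  ∀ i ∈ iv K t0, ∀ k ∈ Icc 1 K, ∀ m ∈ sN (p.al U K) o K (cx K x) i k,
    CapR L k m.1 m.2.2 (cCz p s) (CL e (C i k))

/-- **Field 2: paths, own energy of `A`, masses of `A`, `b`, `C`** (205 HNum, 508, 764). -/
def ZFam : ZP := fun _ _ _ p _ K x s _ _ _ L e t0 A b C =>
  (∃ QA, Fam0 K (cx K x).2.2 (cx K x).2.1 (iv K t0) QA A p.CD
    (p.CD * (lsz p * (p.t ^ (2 : ℝ) * s ^ (3 / 2 : ℝ)) * 8 ^ K)) (p.CD * (lsz p * s * 8 ^ K))) ∧
  (∃ QB : ℤ → ℕ → ℤ → ℤ → Prop, (∀ i ∈ iv K t0, BL e (b i 0) = 0) ∧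
    (∀ i ∈ iv K t0, ∀ l ∈ lbs L, Path K (cx K x).2.1 (cx K x).1 (QB i) fun k => BL e (b i k) l) ∧
    ∑ i ∈ iv K t0, ∑ l ∈ lbs L, pwr K (cx K x).2.1 (cx K x).1 (QB i) (fun k => BL e (b i k) l) ≤
      p.CD * (lsz p * s * 8 ^ K)) ∧
  ∃ QC : ℤ → ℕ → ℤ → ℤ → Prop, (∀ i ∈ iv K t0, CL e (C i 0) = 0) ∧
    (∀ i ∈ iv K t0, ∀ l ∈ lbs L, Path K (cx K x).2.2 (cx K x).1 (QC i) fun k => CL e (C i k) l) ∧
    ∑ i ∈ iv K t0, ∑ l ∈ lbs L, pwr K (cx K x).2.2 (cx K x).1 (QC i) (fun k => CL e (C i k) l) ≤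
      p.CD * (lsz p * s * 8 ^ K)

/-- **Field 3: the gap** (576: `gapN_num`, `GapFam.cuts`, `GapFam.w`). -/
def ZGap : ZP := fun _ _ _ p o K x s r U u L e t0 A b _ =>
  ∑ i ∈ iv K t0, ∑ k ∈ Icc 1 K, ∑ m ∈ sN (p.al U K) o K (cx K x) i k,
    (4 ^ (k + L) : ℝ)⁻¹ * (WZ L (p.lam s r) e (A i) (b i) (KT (p.lam s r) u) (k + L) m *
      (WZ L (p.lam s r) e (A i) (b i) (KT (p.lam s r) u) (k + L) m)ᵀ).trace ≤
    (4 ^ L : ℝ)⁻¹ * (p.CD * (lsz p * (p.t ^ (2 : ℝ) * (p.t / r) ^ (p.e0 / 10) *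
      s ^ (3 / 2 : ℝ)) * 8 ^ K))

/-- **Field 4: mass of the flow** (622 `flowW`). -/
def ZMass : ZP := fun _ _ _ p o K x s r U u L e t0 _ b _ =>
  ∑ i ∈ iv K t0, ∑ k ∈ Icc 1 K, ∑ m ∈ sN (p.al U K) o K (cx K x) i k,
    (YW L (p.lam s r) e (KT (p.lam s r) u) (b i) (k + L) m *
      (YW L (p.lam s r) e (KT (p.lam s r) u) (b i) (k + L) m)ᵀ).trace ≤
    4 ^ L * (p.CD * (lsz p * s * 8 ^ K))

/-- **Field 5: light pair** (874, 46, 999, 588, 80), every level of `C`. -/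
def ZLight : ZP := fun _ _ _ p o K x s r U u L e t0 _ b C =>
  ∀ j, ∑ i ∈ iv K t0, (cCz p s / 2 ^ (j - 1)) ^ 2 * ∑ k ∈ Icc 1 K,
      ∑ m ∈ sN (p.al U K) o K (cx K x) i k,
      (phi (gramC (lv (cCz p s) j * (4 ^ (k + L))⁻¹)
          (bl (k + L) (encR L (CL e (C i k))) m.1 m.2.2)) *
        ((hd (k + L) * SV L e (VL (p.lam s r) (KT (p.lam s r) u)) (k + L) m *
          (bl (k + L) (encR L (BL e (b i k))) m.2.1 m.2.2)ᵀ * hd (k + L)) *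
        (hd (k + L) * SV L e (VL (p.lam s r) (KT (p.lam s r) u)) (k + L) m *
          (bl (k + L) (encR L (BL e (b i k))) m.2.1 m.2.2)ᵀ * hd (k + L))ᵀ)).trace ≤
    4 ^ L * (p.CD * (lsz p * ((p.be s r * (cCz p s / 2 ^ (j - 1)) + p.be s r ^ 2) * s) * 8 ^ K))

/-- **Field 6: flow pair** (924, 672 `flowD`), every level of `C`. -/
def ZFlow : ZP := fun _ _ _ p o K x s r U u L e t0 _ b C =>
  ∀ j, ∑ i ∈ iv K t0, (cCz p s / 2 ^ (j - 1)) ^ 2 * ∑ k ∈ Icc 1 K,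
      ∑ m ∈ sN (p.al U K) o K (cx K x) i k,
      (phi (gramC (lv (cCz p s) j * (4 ^ (k + L))⁻¹)
          (bl (k + L) (encR L (CL e (C i k))) m.1 m.2.2)) *
        (YW L (p.lam s r) e (KT (p.lam s r) u) (b i) (k + L) m *
          (YW L (p.lam s r) e (KT (p.lam s r) u) (b i) (k + L) m)ᵀ)).trace ≤
    4 ^ L * (p.CD * (lsz p * (p.th s r ^ 2 * (p.t / r) ^ p.e0 * s) * 8 ^ K))

/-- **Field 7: crude pair** (822, 433), every pair of levels. -/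
def ZCrude : ZP := fun _ _ _ p o K x s r U u L e t0 _ b C =>
  ∀ j j', ∑ i ∈ iv K t0, LP (K + L) (shs L (sN (p.al U K) o K (cx K x) i))
      (p.th s r) (cCz p s) (shF L fun k => encR L (BL e (b i k)))
      (shF L fun k => encR L (CL e (C i k))) (SV L e (VL (p.lam s r) (KT (p.lam s r) u))) j j' ≤
    4 ^ L * (p.CD * ((p.t / r) ^ (-(10 : ℝ)) * s * 8 ^ K)) *
      max (p.th s r / 2 ^ (j - 1)) (cCz p s / 2 ^ (j' - 1)) ^ 2

/-- two fields -/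
def ZP.and (Z Z' : ZP) : ZP := fun ι _ _ p o K x s r U u L e t0 A b C =>
  Z ι p o K x s r U u L e t0 A b C ∧ Z' ι p o K x s r U u L e t0 A b C

/-- **The data of one tile.** -/
def ZT : ZP :=
  ZP.and ZCap (ZP.and ZFam (ZP.and ZGap (ZP.and ZMass (ZP.and ZLight (ZP.and ZFlow ZCrude)))))

/-- **The bundle of the gap part.** -/
def ZD : Bun := fun ι _ _ p _n ez _F1 _F2 _F3 o K x s r U _g u _v A b C =>
  (ez ≤ 0 → ∀ x0, ∀ k ∈ Icc 1 K, ∀ z x1, C x0 k z x1 = 0) ∧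
  (0 < ez → ∃ (L : ℕ) (e : ι → ℤ), Function.Injective e ∧ (∀ i, e i ∈ lbs L) ∧
    ∀ t0 ∈ rt (cx K x), ZT ι p o K x s r U u L e t0 A b
      fun x0 k z x1 => (√ez)⁻¹ • C x0 k z x1)

/-- the sum of the gap parts of one tile -/
def StZ : StX := fun ι _ _ p _n ez _F1 _F2 _F3 o K x s r U _g u _v B =>
  ∀ (L : ℕ) (e : ι → ℤ) (t0 : ℤ) (A : ℤ → ℕ → ℤ → ℤ → ℝ) (b C : ℤ → ℕ → ℤ → ℤ → ι → ℝ),
    Function.Injective e → (∀ i, e i ∈ lbs L) → ZT ι p o K x s r U u L e t0 A b C →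
    √ez * ∑ i ∈ iv K t0, ∑ k ∈ Icc 1 K, ∑ m ∈ sN (p.al U K) o K (cx K x) i k,
      |ndZ (p.lam s r) (KT (p.lam s r) u) (A i k) (b i k) (C i k) k m| ≤ B

/-- **Leaf `TileZ`** (873, 775 over 555's `tzX_lab'`): the price of one tile. -/
def TileZ : Prop := PartX StZ

/-- **Leaves `MkT Z`**: the definite families have the field `Z`. -/
def MkT (Z : ZP) : Prop :=
  PartQ fun ι _ _ p _n ez F1 F2 F3 o K x s r U g u v Q1 _Q2 Q3 _B => 0 < ez →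
    ∀ (L : ℕ) (e : ι → ℤ), Function.Injective e → (∀ i, e i ∈ lbs L) → ∀ t0 ∈ rt (cx K x),
      Z ι p o K x s r U u L e t0 (cA p s r U K g F1 Q1) (cb p s r U K u F3 Q3)
        fun x0 k z x1 => (√ez)⁻¹ • mC p U K v F2 x0 k z x1

/-! ### Assembly -/

section

variable {κ : Type*} [Fintype κ] [DecidableEq κ]

theorem ndZ_smulC (l : ℝ) (K : ℤ → ℕ → ℤ → Matrix κ κ ℝ) (A : ℤ → ℤ → ℝ) (b C C' : ℤ → ℤ → κ → ℝ)
    (a : ℝ) (h : ∀ z x, C z x = a • C' z x) (k : ℕ) (m : Pt) :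
    ndZ l K A b C k m = a * ndZ l K A b C' k m := by
  unfold H677.ndZ
  rw [mul_sum]
  refine sum_congr rfl fun z _ => ?_
  rw [mul_sum]
  refine sum_congr rfl fun x _ => ?_
  rw [h, dotProduct_smul, smul_eq_mul]
  ring

end

/-- **The gap part from its tiles.** -/
theorem partF_NZ (H : TileZ) : PartF ZD NZ := by
  intro a ha ha1
  obtain ⟨es, hes, H⟩ := H a ha ha1
  refine ⟨es, hes, fun e0 he0 he0' => ?_⟩
  obtain ⟨k8s, hk8s, H⟩ := H e0 he0 he0'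
  refine ⟨k8s, hk8s, fun k8 hk8 hk8' => ?_⟩
  obtain ⟨k3s, hk3s, H⟩ := H k8 hk8 hk8'
  refine ⟨k3s, hk3s, fun k3 hk3 hk3' => ?_⟩
  obtain ⟨gam, c1, d0, del, hgam, hc1, hd0, hdel, H⟩ := H k3 hk3 hk3'
  refine ⟨gam, c1, d0, del, hgam, hc1, hd0, hdel,
    fun c hc hcc d hd hdd Kt e cP L hK he hcP hL CD hCD => ?_⟩
  obtain ⟨C, hC, H⟩ := H c hc hcc d hd hdd Kt e cP L hK he hcP hL CD hCD
  refine ⟨3 * C, by positivity, ?_⟩
  intro t ht ht1 n ez F1 F2 F3 h1 h3 h2 o ho K hKn x ι _ _ s r U g u v hs hr hcls A b C₁ hD sg _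
  have key := H t ht ht1 n ez F1 F2 F3 h1 h3 h2 o ho K hKn x ι s r U g u v hs hr hcls
  have hB : 0 ≤ C * (t ^ (1 + gam) * s ^ (5 / 4 : ℝ) * √ez * 8 ^ K) * r ^ (-del) :=
    H401.price_nonneg ht hs hr hC gam del K
  have h4 : ∀ t0 ∈ rt (cx K x), ∑ i ∈ iv K t0, ∑ k ∈ Icc 1 K,
      ∑ m ∈ sN (H401.Num.al ⟨a, e0, k8, k3, c, d, Kt, e, cP, L, CD, t⟩ U K) o K (cx K x) i k,
      |ndZ (H401.Num.lam ⟨a, e0, k8, k3, c, d, Kt, e, cP, L, CD, t⟩ s r)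
        (KT (H401.Num.lam ⟨a, e0, k8, k3, c, d, Kt, e, cP, L, CD, t⟩ s r) u) (A i k) (b i k)
        (C₁ i k) k m| ≤ C * (t ^ (1 + gam) * s ^ (5 / 4 : ℝ) * √ez * 8 ^ K) * r ^ (-del) := by
    intro t0 ht0
    rcases lt_or_ge 0 ez with hez | hez
    · obtain ⟨L', e', inj, hm, hT⟩ := hD.2 hez
      refine le_trans (le_of_eq ?_) (key L' e' t0 A b _ inj hm (hT t0 ht0))
      rw [mul_sum]
      refine sum_congr rfl fun i _ => ?_
      rw [mul_sum]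
      refine sum_congr rfl fun k _ => ?_
      rw [mul_sum]
      refine sum_congr rfl fun m _ => ?_
      rw [ndZ_smulC _ _ _ _ (C₁ i k) (fun z x1 => (√ez)⁻¹ • C₁ i k z x1) (√ez) (fun z x1 => ?_),
        abs_mul, abs_of_nonneg (Real.sqrt_nonneg ez)]
      rw [smul_smul, mul_inv_cancel₀ (Real.sqrt_pos.2 hez).ne', one_smul]
    · refine le_trans (le_of_eq ?_) hB
      refine sum_eq_zero fun i _ => sum_eq_zero fun k hk => sum_eq_zero fun m _ => ?_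
      rw [ndZ_smulC _ _ _ _ (C₁ i k) (C₁ i k) 0 (fun z x1 => ?_), zero_mul, abs_zero]
      rw [hD.1 hez i k hk z x1, smul_zero]
  unfold H401.NZ H401.NS
  refine (sum_le_sum h4).trans ?_
  rw [sum_const, nsmul_eq_mul]
  have h5 : ((rt (cx K x)).card : ℝ) = 3 := by
    unfold H677.rt
    rw [Int.card_Icc]
    have : -((cx K x).1 + (cx K x).2.1 + (cx K x).2.2) - 1 + 1 -
      (-((cx K x).1 + (cx K x).2.1 + (cx K x).2.2) - 3) = 3 := by ring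
    rw [this]
    have h6 : Int.toNat 3 = 3 := rfl
    rw [h6]
    norm_num
  rw [h5]
  exact le_of_eq (by ring)

/-- monotone in the constant -/
def MonoZ (Z : ZP) : Prop :=
  ∀ (ι : Type) [Fintype ι] [DecidableEq ι] (p : H401.Num) (CD : ℝ) (o : ℤ) (K : ℕ) (x : Pt) (s r : ℝ)
    (U : Tri) (u : ℤ → ℤ → ι → ℝ) (L : ℕ) (e : ι → ℤ) (t0 : ℤ) (A : ℤ → ℕ → ℤ → ℤ → ℝ)
    (b C : ℤ → ℕ → ℤ → ℤ → ι → ℝ), 0 < p.t → 0 < s → 1 ≤ r → CD ≤ p.CD →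
    Z ι { p with CD := CD } o K x s r U u L e t0 A b C → Z ι p o K x s r U u L e t0 A b C

/-- **Two fields together.** -/
theorem MkT.and {Z Z' : ZP} (hZ : MonoZ Z) (hZ' : MonoZ Z') (H : MkT Z) (H' : MkT Z') :
    MkT (ZP.and Z Z') := by
  unfold MkT PartQ at H H' ⊢
  refine PartY.add H H' ?_
  intro ι _ _ p CD1 CD2 n ez F1 F2 F3 o K x s r U g u v B1 B2 B ht hs hr ho _ h1 _ h2 _ _ k1 k2 _
    Q1 Q2 Q3 q1 q2 q3 hez L e he hm t0 ht0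
  exact ⟨hZ ι p CD1 o K x s r U u L e t0 _ _ _ ht hs hr h1
      (k1 Q1 Q2 Q3 q1 q2 q3 hez L e he hm t0 ht0),
    hZ' ι p CD2 o K x s r U u L e t0 _ _ _ ht hs hr h2
      (k2 Q1 Q2 Q3 q1 q2 q3 hez L e he hm t0 ht0)⟩

/-! ### The fields are monotone in the constant -/

theorem lsz_pos {p : H401.Num} (ht : 0 < p.t) : 0 < lsz p := Real.rpow_pos_of_pos ht _

theorem packQ_mono {N : ℕ} {R S : ℤ} {Q : ℕ → ℤ → ℤ → Prop} {c c' : ℝ} (h : c ≤ c')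
    (H : PackQ N R S Q c) : PackQ N R S Q c' := fun K hK n m =>
  (H K hK n m).trans (mul_le_mul_of_nonneg_right h (by positivity))

theorem monoCap : MonoZ ZCap := fun _ _ _ _ _ _ _ _ _ _ _ _ _ _ _ _ _ _ _ _ _ _ h => h

theorem monoFam : MonoZ ZFam := by
  intro ι _ _ p CD o K x s r U u L e t0 A b C ht hs hr hCD h
  have h0 : 0 ≤ lsz p := (lsz_pos ht).le
  have h1 : 0 ≤ p.t ^ (2 : ℝ) := (Real.rpow_pos_of_pos ht _).le
  have h2 : 0 ≤ s ^ (3 / 2 : ℝ) := (Real.rpow_pos_of_pos hs _).le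
  have m1 : CD * (lsz p * s * 8 ^ K) ≤ p.CD * (lsz p * s * 8 ^ K) :=
    mul_le_mul_of_nonneg_right hCD (by positivity)
  have m2 : CD * (lsz p * (p.t ^ (2 : ℝ) * s ^ (3 / 2 : ℝ)) * 8 ^ K) ≤
      p.CD * (lsz p * (p.t ^ (2 : ℝ) * s ^ (3 / 2 : ℝ)) * 8 ^ K) :=
    mul_le_mul_of_nonneg_right hCD (by positivity)
  obtain ⟨⟨QA, hA⟩, ⟨QB, b0, b1, b2⟩, QC, c0, c1, c2⟩ := h
  exact ⟨⟨QA, hA.path, hA.zero, fun i hi => packQ_mono hCD (hA.pack i hi), hA.own.trans m2,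
    hA.pow.trans m1⟩, ⟨QB, b0, b1, b2.trans m1⟩, QC, c0, c1, c2.trans m1⟩

theorem monoGap : MonoZ ZGap := by
  intro ι _ _ p CD o K x s r U u L e t0 A b C ht hs hr hCD h
  have h0 : 0 ≤ lsz p := (lsz_pos ht).le
  have h1 : 0 ≤ p.t ^ (2 : ℝ) := (Real.rpow_pos_of_pos ht _).le
  have h2 : 0 ≤ s ^ (3 / 2 : ℝ) := (Real.rpow_pos_of_pos hs _).le
  have h3 : 0 ≤ (p.t / r) ^ (p.e0 / 10) := Real.rpow_nonneg (div_nonneg ht.le (by linarith)) _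
  refine le_trans h (mul_le_mul_of_nonneg_left (mul_le_mul_of_nonneg_right hCD ?_)
    (by positivity))
  show 0 ≤ lsz p * (p.t ^ (2 : ℝ) * (p.t / r) ^ (p.e0 / 10) * s ^ (3 / 2 : ℝ)) * 8 ^ K
  positivity

theorem monoMass : MonoZ ZMass := by
  intro ι _ _ p CD o K x s r U u L e t0 A b C ht hs hr hCD h
  have h0 : 0 ≤ lsz p := (lsz_pos ht).le
  refine le_trans h (mul_le_mul_of_nonneg_left (mul_le_mul_of_nonneg_right hCD ?_)
    (by positivity))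
  show 0 ≤ lsz p * s * 8 ^ K
  positivity

theorem monoLight : MonoZ ZLight := by
  intro ι _ _ p CD o K x s r U u L e t0 A b C ht hs hr hCD h j
  have h0 : 0 ≤ lsz p := (lsz_pos ht).le
  have hb : 0 ≤ p.be s r := (H401.Num.be_pos ht hs hr).le
  have hc : 0 ≤ cCz p s := by unfold cCz; positivity
  refine le_trans (h j) (mul_le_mul_of_nonneg_left (mul_le_mul_of_nonneg_right hCD ?_)
    (by positivity))
  show 0 ≤ lsz p * ((p.be s r * (cCz p s / 2 ^ (j - 1)) + p.be s r ^ 2) * s) * 8 ^ K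
  positivity

theorem monoFlow : MonoZ ZFlow := by
  intro ι _ _ p CD o K x s r U u L e t0 A b C ht hs hr hCD h j
  have h0 : 0 ≤ lsz p := (lsz_pos ht).le
  have h3 : 0 ≤ (p.t / r) ^ p.e0 := Real.rpow_nonneg (div_nonneg ht.le (by linarith)) _
  refine le_trans (h j) (mul_le_mul_of_nonneg_left (mul_le_mul_of_nonneg_right hCD ?_)
    (by positivity))
  show 0 ≤ lsz p * (p.th s r ^ 2 * (p.t / r) ^ p.e0 * s) * 8 ^ K
  positivity

theorem monoCrude : MonoZ ZCrude := by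
  intro ι _ _ p CD o K x s r U u L e t0 A b C ht hs hr hCD h j j'
  have h3 : 0 ≤ (p.t / r) ^ (-(10 : ℝ)) := Real.rpow_nonneg (div_nonneg ht.le (by linarith)) _
  refine le_trans (h j j') (mul_le_mul_of_nonneg_right (mul_le_mul_of_nonneg_left
    (mul_le_mul_of_nonneg_right hCD ?_) (by positivity)) (sq_nonneg _))
  show 0 ≤ (p.t / r) ^ (-(10 : ℝ)) * s * 8 ^ K
  positivity

theorem MonoZ.and {Z Z' : ZP} (h : MonoZ Z) (h' : MonoZ Z') : MonoZ (ZP.and Z Z') :=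
  fun ι _ _ p CD o K x s r U u L e t0 A b C ht hs hr hCD H =>
    ⟨h ι p CD o K x s r U u L e t0 A b C ht hs hr hCD H.1,
      h' ι p CD o K x s r U u L e t0 A b C ht hs hr hCD H.2⟩

/-- the makers of all fields -/
theorem mkT_all (H1 : MkT ZCap) (H2 : MkT ZFam) (H3 : MkT ZGap) (H4 : MkT ZMass)
    (H5 : MkT ZLight) (H6 : MkT ZFlow) (H7 : MkT ZCrude) : MkT ZT := by
  have a6 := MkT.and monoFlow monoCrude H6 H7
  have m6 := monoFlow.and monoCrude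
  have a5 := MkT.and monoLight m6 H5 a6
  have m5 := monoLight.and m6
  have a4 := MkT.and monoMass m5 H4 a5
  have m4 := monoMass.and m5
  have a3 := MkT.and monoGap m4 H3 a4
  have m3 := monoGap.and m4
  have a2 := MkT.and monoFam m3 H2 a3
  have m2 := monoFam.and m3
  exact MkT.and monoCap m2 H1 a2

/-- labels as digits -/
theorem exists_lab (ι : Type) [Fintype ι] :
    ∃ (L : ℕ) (e : ι → ℤ), Function.Injective e ∧ ∀ i, e i ∈ lbs L := by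
  refine ⟨Fintype.card ι, fun i => ((Fintype.equivFin ι i : ℕ) : ℤ), fun i j h => ?_, fun i => ?_⟩
  · refine (Fintype.equivFin ι).injective (Fin.ext ?_)
    dsimp only at h
    exact_mod_cast h
  · unfold H958.lbs
    rw [Finset.mem_Ico]
    refine ⟨by positivity, ?_⟩
    have h1 : (Fintype.equivFin ι i : ℕ) < 2 ^ Fintype.card ι :=
      (Fintype.equivFin ι i).isLt.trans Nat.lt_two_pow_self
    dsimp only
    exact_mod_cast h1

/-- **The bundle from the makers.** -/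
theorem mkZ (H : MkT ZT) : MkSt ZD := by
  intro a ha ha1
  obtain ⟨es, hes, H⟩ := H a ha ha1
  refine ⟨es, hes, fun e0 he0 he0' => ?_⟩
  obtain ⟨k8s, hk8s, H⟩ := H e0 he0 he0'
  refine ⟨k8s, hk8s, fun k8 hk8 hk8' => ?_⟩
  obtain ⟨k3s, hk3s, H⟩ := H k8 hk8 hk8'
  refine ⟨k3s, hk3s, fun k3 hk3 hk3' => ?_⟩
  obtain ⟨gam, c1, d0, del, hgam, hc1, hd0, hdel, H⟩ := H k3 hk3 hk3'
  refine ⟨gam, c1, d0, del, hgam, hc1, hd0, hdel,
    fun c hc hcc d hd hdd Kt e cP L hK he hcP hL => ?_⟩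
  obtain ⟨CD, hCD, C, hC, H⟩ := H c hc hcc d hd hdd Kt e cP L hK he hcP hL
  refine ⟨CD, hCD, C, hC, ?_⟩
  intro t ht ht1 n ez F1 F2 F3 h1 h3 h2 o ho K hKn x ι _ _ s r U g u v hs hr hcls Q1 Q2 Q3 q1 q2 q3
  have key := H t ht ht1 n ez F1 F2 F3 h1 h3 h2 o ho K hKn x ι s r U g u v hs hr hcls Q1 Q2 Q3
    q1 q2 q3
  refine ⟨fun hez x0 k hk z x1 => ?_, fun hez => ?_⟩
  · obtain ⟨j, rfl⟩ : ∃ j, k = j + 1 := ⟨k - 1, by have := (mem_Icc.1 hk).1; omega⟩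
    have hj : j < n := by have := (mem_Icc.1 hk).2; omega
    have e1 := q2.l0 j hj (ix j x0) x1 z
    have e2 : F2 (j + 1) (x0, x1, z) ^ 2 ≤
        ∑ w ∈ iv j (ix j x0), F2 (j + 1) (w, x1, z) ^ 2 :=
      single_le_sum (f := fun w => F2 (j + 1) (w, x1, z) ^ 2) (fun _ _ => sq_nonneg _)
        (mem_iv.2 rfl)
    have e3 : ez * 2 ^ j ≤ 0 := mul_nonpos_of_nonpos_of_nonneg hez (by positivity)
    have e4 : F2 (j + 1) (x0, x1, z) = 0 :=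
      pow_eq_zero_iff (two_ne_zero) |>.1 (le_antisymm (by linarith) (sq_nonneg _))
    show H677.fC v _ x0 (j + 1) z x1 = 0
    unfold H677.fC H677.kF
    rw [e4, ite_self, zero_smul]
  · obtain ⟨L', e', he', hm'⟩ := exists_lab ι
    exact ⟨L', e', he', hm', fun t0 ht0 => key hez L' e' he' hm' t0 ht0⟩

/-- **The price of the gap part of the definite families.** -/
theorem cst_NZ (H1 : MkT ZCap) (H2 : MkT ZFam) (H3 : MkT ZGap) (H4 : MkT ZMass)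
    (H5 : MkT ZLight) (H6 : MkT ZFlow) (H7 : MkT ZCrude) (HT : TileZ) : CSt NZ :=
  CSt.of_mk (mkZ (mkT_all H1 H2 H3 H4 H5 H6 H7)) (partF_NZ HT)

end

end Vale.Agent.P141.H331
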