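import Vale.Agent.P141.H331.SkelTZU
import Vale.Agent.P141.H579.MkCap
import Vale.Agent.P141.H64.ZFam
import Vale.Agent.P141.H672.ZFlowI
import Vale.Agent.P141.H511.LoW
import Vale.Agent.P141.H433.LoW

/-!
# P141, line (A): the crude pair of the gap part from the rows

`leafCr_of : RowCr → LeafCr` : caps from `H579.mkT_ZCap`, paths and powers from `H64.mkT_ZFam`,
`H511.LoW.lo_LP_light_rows` over `H433.lo_pathW`.
-/

namespace Vale.Agent.P141.H331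

open Finset Matrix Vale.Agent.P075 Vale.Agent.P141.PL Vale.Agent.P141.PL.H588
open Vale.Agent.P141.PL.H804 Vale.Agent.P141.H958 Vale.Agent.P141.H338 Vale.Agent.P141.H609
open Vale.Agent.P141.H822 (SV VL)
open Vale.Agent.P141.H511 (BL CL YW)
open Vale.Agent.P141.H677 (ndZ KT GT rt sN cP cP_pl sN_sub tr_T rv)
open Vale.Agent.P141.H677.Sk (lam1)
open Vale.Agent.P141.PL.H315 (Tri)
open Vale.Agent.P141.H48 (US ES BSl)
open Vale.Agent.P141.H401 (PartX PartY PartF NZ PartQ FibU FibP DuS DvS cb mC)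

noncomputable section

open scoped Classical

theorem loPW : H511.LoW.LoPW := fun _ _ _ _ _ _ _ _ _ _ _ _ _ hc hU eF eH =>
  H433.lo_pathW hc hU eF eH

/-- number of the rows -/
def rhoZ (p : H401.Num) (K : ℕ) (s r : ℝ) : ℝ := 2 ^ K * (2 * (p.e + 1) * lam1 p s r)

/-- **Rows of the families `cb`, `mC / √ez`** at the label vertex, data with small fibres. -/
def RowCr : Prop :=
  ∀ (ι : Type) [Fintype ι] [DecidableEq ι] (p : H401.Num) (n : ℕ) (ez : ℝ)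
    (F2 F3 : ℕ → Pt → ℝ) (o : ℤ) (K : ℕ) (x : Pt) (s r : ℝ) (U : Tri) (u v : ℤ → ℤ → ι → ℝ)
    (Q2 Q3 : ℕ → Pt → Prop) (L : ℕ) (e : ι → ℤ) (t0 : ℤ), 0 < p.t → 0 < s → 1 ≤ r → 0 ≤ p.e →
    0 < ez → K ≤ n → BSl n ez p.cP F2 Q2 → BSl n p.e p.cP F3 Q3 → FibU p K x s r U u →
    FibP p K x s r U v → Function.Injective e → (∀ i, e i ∈ lbs L) →
    (∀ k < K, ∀ y ∈ iv K (rv (cx K x)).2.2, ∀ n' ∈ iv (K - (k + 1)) (rv (cx K x)).2.1,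
      ∑ i ∈ iv K t0, (if cP o i (k + 1) - ix (k + 1) y - n' ∈ iv (K - (k + 1)) (rv (cx K x)).1 then
        ∑ x3 ∈ iv (k + 1) (cP o i (k + 1) - ix (k + 1) y - n'), ∑ l ∈ lbs L,
          CL e (fun z x1 => (√ez)⁻¹ • mC p U K v F2 i (k + 1) z x1) l x3 y ^ 2 else 0) ≤
        2 ^ (k + 1) * rhoZ p K s r) ∧
    ∀ k < K, ∀ y ∈ iv K (rv (cx K x)).2.2, ∀ n' ∈ iv (K - (k + 1)) (rv (cx K x)).2.1,
      ∑ i ∈ iv K t0, ∑ x2 ∈ iv (k + 1) n', ∑ l ∈ lbs L,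
        BL e (cb p s r U K u F3 Q3 i (k + 1)) l x2 y ^ 2 ≤ 2 ^ (k + 1) * rhoZ p K s r

/-- `lam1 / lam ≤ (t / r) ^ (-10)` -/
theorem lam1_lam {p : H401.Num} {s r : ℝ} (ht : 0 < p.t) (ht1 : p.t ≤ 1) (hs : 0 < s) (hr : 1 ≤ r)
    (he0 : 0 ≤ p.e0) : lam1 p s r * (p.lam s r)⁻¹ ≤ (p.t / r) ^ (-(10 : ℝ)) := by
  have hr0 : 0 < r := by linarith
  have hl : 0 < p.lam s r := H401.Num.lam_pos ht hs hr
  rw [← div_eq_mul_inv, div_le_iff₀ hl]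
  have h2 : (p.t / r) ^ (-(10 : ℝ)) = p.t ^ (-(10 : ℝ)) * r ^ (10 : ℝ) := by
    rw [Real.div_rpow ht.le hr0.le, Real.rpow_neg hr0.le, div_inv_eq_mul]
  have h3 : lam1 p s r = p.t ^ (-(8 : ℝ)) * √s * r ^ (8 : ℝ) := rfl
  have h4 : p.lam s r = p.t ^ (2 - p.e0) * √s * r ^ p.e0 := rfl
  rw [h2, h3, h4]
  have e1 : p.t ^ (-(8 : ℝ)) ≤ p.t ^ (-(10 : ℝ)) * p.t ^ (2 - p.e0) := by
    rw [← Real.rpow_add ht]
    exact Real.rpow_le_rpow_of_exponent_ge ht ht1 (by linarith)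
  have e2 : r ^ (8 : ℝ) ≤ r ^ (10 : ℝ) * r ^ p.e0 := by
    rw [← Real.rpow_add hr0]
    exact Real.rpow_le_rpow_of_exponent_le hr (by linarith)
  have p1 : 0 < p.t ^ (-(8 : ℝ)) := Real.rpow_pos_of_pos ht _
  have p2 : 0 < r ^ (8 : ℝ) := Real.rpow_pos_of_pos hr0 _
  have p3 := Real.sqrt_nonneg s
  calc p.t ^ (-(8 : ℝ)) * √s * r ^ (8 : ℝ)
      ≤ (p.t ^ (-(10 : ℝ)) * p.t ^ (2 - p.e0)) * √s * (r ^ (10 : ℝ) * r ^ p.e0) := by gcongr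
    _ = _ := by ring

/-- `lsz ≤ (t / r) ^ (-10)` -/
theorem lsz_le {p : H401.Num} {r : ℝ} (ht : 0 < p.t) (ht1 : p.t ≤ 1) (hr : 1 ≤ r)
    (hcd : 8 * (p.c + p.d) ≤ 10) : lsz p ≤ (p.t / r) ^ (-(10 : ℝ)) := by
  have hr0 : 0 < r := by linarith
  have h2 : (p.t / r) ^ (-(10 : ℝ)) = p.t ^ (-(10 : ℝ)) * r ^ (10 : ℝ) := by
    rw [Real.div_rpow ht.le hr0.le, Real.rpow_neg hr0.le, div_inv_eq_mul]
  have e1 : lsz p ≤ p.t ^ (-(10 : ℝ)) :=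
    Real.rpow_le_rpow_of_exponent_ge ht ht1 (by linarith)
  have e2 : 1 ≤ r ^ (10 : ℝ) := Real.one_le_rpow hr (by norm_num)
  have p1 : 0 < p.t ^ (-(10 : ℝ)) := Real.rpow_pos_of_pos ht _
  rw [h2]
  exact e1.trans (le_mul_of_one_le_right p1.le e2)

/-- the number of the crude pair -/
theorem cr_num {CD e lz l1 li s T : ℝ} (h1 : lz ≤ T) (h2 : l1 * li ≤ T) (hCD : 0 ≤ CD)
    (he : 0 ≤ e) (hs : 0 ≤ s) (K L : ℕ) :
    16 * 10 ^ 4 * (4 ^ L * (CD * (lz * s * 8 ^ K) + CD * (lz * s * 8 ^ K)) +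
      10 * (2 ^ K * (2 * (e + 1) * l1)) * (4 ^ (K + L) * (2 * li * s))) ≤
    4 ^ L * (16 * 10 ^ 4 * (2 * CD + 40 * (e + 1)) * (T * s * 8 ^ K)) := by
  have e1 : 16 * 10 ^ 4 * (4 ^ L * (CD * (lz * s * 8 ^ K) + CD * (lz * s * 8 ^ K)) +
      10 * (2 ^ K * (2 * (e + 1) * l1)) * (4 ^ (K + L) * (2 * li * s))) =
      4 ^ L * (16 * 10 ^ 4 * (s * 8 ^ K) * (2 * CD * lz + 40 * (e + 1) * (l1 * li))) := by
    rw [pow_add, show (8 : ℝ) = 2 * 4 by norm_num, mul_pow]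
    ring
  have e2 : 4 ^ L * (16 * 10 ^ 4 * (2 * CD + 40 * (e + 1)) * (T * s * 8 ^ K)) =
      4 ^ L * (16 * 10 ^ 4 * (s * 8 ^ K) * (2 * CD * T + 40 * (e + 1) * T)) := by ring
  rw [e1, e2]
  gcongr

/-- **The crude pair from the rows.** -/
theorem leafCr_of (HR : RowCr) : LeafCr := by
  have H := MkTH.and HUV_noCD monoCap monoFam (H579.mkT_ZCap.toH HUV) (H64.mkT_ZFam.toH HUV)
  unfold LeafCr
  unfold MkTH PartQ at H ⊢
  intro a ha ha1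
  obtain ⟨es, hes, H⟩ := H a ha ha1
  refine ⟨es, hes, fun e0 he0 he0' => ?_⟩
  obtain ⟨k8s, hk8s, H⟩ := H e0 he0 he0'
  refine ⟨k8s, hk8s, fun k8 hk8 hk8' => ?_⟩
  obtain ⟨k3s, hk3s, H⟩ := H k8 hk8 hk8'
  refine ⟨k3s, hk3s, fun k3 hk3 hk3' => ?_⟩
  obtain ⟨gam, c1, d0, del, hgam, hc1, hd0, hdel, H⟩ := H k3 hk3 hk3'
  refine ⟨gam, min c1 (1 / 2), min d0 (1 / 2), del, hgam, lt_min hc1 (by norm_num),
    lt_min hd0 (by norm_num), hdel,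
    fun c hc hcc d hd hdd Kt e cP' L hK he hcP hL => ?_⟩
  have hc2 : c ≤ 1 / 2 := hcc.trans (min_le_right _ _)
  have hd2 : d ≤ 1 / 2 := hdd.trans (min_le_right _ _)
  obtain ⟨CD, hCD, C, hC, H⟩ := H c hc (hcc.trans (min_le_left _ _)) d hd
    (hdd.trans (min_le_left _ _)) Kt e cP' L hK he hcP hL
  refine ⟨16 * 10 ^ 4 * (2 * CD + 40 * (e + 1)), by nlinarith, C, hC, ?_⟩
  intro t ht ht1 n ez F1 F2 F3 h1 h3 h2 o ho K hKn x ι _ _ s r U g u v hs hr hcls Q1 Q2 Q3 q1 q2 q3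
    hf hez L' e' he' hm t0 ht0 j j'
  obtain ⟨⟨_, cB, cC⟩, ⟨_, ⟨QB, b0, bp, bo⟩, QC, c0, cp, co⟩⟩ :=
    H t ht ht1 n ez F1 F2 F3 h1 h3 h2 o ho K hKn x ι s r U g u v hs hr hcls Q1 Q2 Q3
    q1 q2 q3 hf hez L' e' he' hm t0 ht0
  set p : H401.Num := ⟨a, e0, k8, k3, c, d, Kt, e, cP', L, CD, t⟩ with hp
  have he1 : 0 ≤ p.e := zero_le_one.trans he
  obtain ⟨rC, rB⟩ := HR ι p n ez F2 F3 o K x s r U u v Q2 Q3 L' e' t0 ht hs hr he1 hez hKn q2 q3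
    hf.1 hf.2 he' hm
  have hl : 0 < p.lam s r := H401.Num.lam_pos ht hs hr
  have hLm : 0 < p.Lm := Real.rpow_pos_of_pos ht _
  have hcC : 0 < cCz p s := by
    unfold cCz
    have := mul_pos hLm hs
    positivity
  have hth : 0 < p.th s r := H401.Num.th_pos ht hs hr
  have hl1 : 0 < lam1 p s r := H401.lam1_pos ht hs hr
  have hρ : 0 ≤ rhoZ p K s r := by
    unfold rhoZ
    positivity
  have key := H511.LoW.lo_LP_light_rows (X := iv K t0) (c := fun i k => cP o i k)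
    (B := fun i k => BL e' (cb p s r U K u F3 Q3 i k))
    (C := fun i k => CL e' (fun z x1 => (√ez)⁻¹ • mC p U K v F2 i k z x1))
    (s := fun i k => sN (p.al U K) o K (cx K x) i k) (R := rv (cx K x)) (N := K)
    (l := p.lam s r) (G := GT u) (K := KT (p.lam s r) u) (el := e') (cB := p.th s r)
    (cC := cCz p s) (QB := QB) (QC := QC) (H511.LoW.loFam_of loPW) he' hm
    (fun i _ => cP_pl ho i) hth hcC (fun i _ k _ => sN_sub ..) cB cC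
    (fun x1 => tr_T hl K u x1) b0 c0 bp cp bo co hρ rC rB (H672.GT_mass hcls.toCls) j j'
  refine key.trans (mul_le_mul_of_nonneg_right ?_ (sq_nonneg _))
  exact cr_num (lsz_le (p := p) ht ht1 hr (by
    show 8 * (c + d) ≤ 10
    linarith)) (lam1_lam (p := p) ht ht1 hs hr he0.le) (by linarith) (by linarith) hs.le K L'

end

end Vale.Agent.P141.H331
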