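import Vale.Agent.P141.H331.Ind

/-!
# P141, line (A): lowering three slots, the highest slot is the centre

Steps in the three indices with the costs `κA s_A`, `κB √q`, `κC √q`; `q` is bounded by a constant
and, below the level `s₁`, by the square of the level.
-/

namespace Vale.Agent.P141.H331

noncomputable section

/-- **Lowering of the three slots.** -/
theorem low3 {f : ℕ → ℕ → ℕ → ℝ} {q : ℕ → ℕ → ℝ} {cA cB cC κA κB κC q₀ K s₁ Kt σ : ℝ}
    (hA : 0 < cA) (hB : 0 < cB) (hC : 0 < cC) (kA : 0 ≤ κA) (kB : 0 ≤ κB) (kC : 0 ≤ κC)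
    (hKt : 0 ≤ Kt)
    (stepA : ∀ a b e, sl cB b ≤ sl cA a → sl cC e ≤ sl cA a →
      f a b e ≤ f (a + 1) b e + κA * sl cA a)
    (stepB : ∀ a b e, sl cA a ≤ sl cB b → sl cC e ≤ sl cB b →
      f a b e ≤ f a (b + 1) e + κB * √(q (b + 1) e))
    (stepC : ∀ a b e, sl cA a ≤ sl cC e → sl cB b ≤ sl cC e →
      f a b e ≤ f a b (e + 1) + κC * √(q b (e + 1)))
    {a b e : ℕ} (lp1 : ∀ b' e', e ≤ e' → q b' e' ≤ q₀)
    (lp2 : ∀ b e, sl cB b ≤ s₁ → sl cC e ≤ s₁ → q b e ≤ K * max (sl cB b) (sl cC e) ^ 2)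
    (tail : ∀ a b e, f a b e ≤ Kt * (2 ^ a)⁻¹ ∧ f a b e ≤ Kt * (2 ^ b)⁻¹ ∧
      f a b e ≤ Kt * (2 ^ e)⁻¹) {LB LC : ℕ} (hLB : 1 ≤ LB) (hLC : 1 ≤ LC)
    (lB : sl cB LB ≤ s₁) (lC : sl cC LC ≤ s₁) (ha : sl cA a ≤ σ) :
    f a b e ≤ 3 * κA * σ + (κB * √q₀ * LB + 2 * (κB * √K) * s₁) +
      (κC * √q₀ * LC + 2 * (κC * √K) * s₁) := by
  have main := ind3p (f := f) (P := pot cA κA) (Q := potL cB (κB * √q₀) (κB * √K) LB)
    (R := potL cC (κC * √q₀) (κC * √K) LC) (K := Kt) (a₀ := a) (b₀ := b) (e₀ := e)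
    (pot_nonneg hA.le kA) (potL_nonneg hB.le (by positivity) (by positivity) LB)
    (potL_nonneg hC.le (by positivity) (by positivity) LC) tail hKt ?_
  · refine main.trans ?_
    have h1 := pot_le hA.le kA ha
    have h2 := potL_le (b := b) hB.le (show 0 ≤ κB * √q₀ by positivity)
      (show 0 ≤ κB * √K by positivity) lB
    have h3 := potL_le (b := e) hC.le (show 0 ≤ κC * √q₀ by positivity)
      (show 0 ≤ κC * √K by positivity) lC
    linarith
  intro a b e' _ _ he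
  have sq2 : ∀ {x y : ℝ}, 0 ≤ x → y ≤ K * x ^ 2 → √y ≤ √K * x := fun {x y} hx h => by
    refine (Real.sqrt_le_sqrt h).trans (le_of_eq ?_)
    rw [mul_comm K, Real.sqrt_mul (sq_nonneg x), Real.sqrt_sq hx, mul_comm]
  rcases le_total (sl cB b) (sl cA a) with hba | hab
  · rcases le_total (sl cC e') (sl cA a) with hca | hac
    · left
      rw [pot_step]
      exact stepA a b e' hba hca
    · right; right
      have hbc := hba.trans hac
      refine (stepC a b e' hac hbc).trans (add_le_add le_rfl ?_)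
      by_cases h : e' < LC
      · rw [potL_step_lt h]
        exact mul_le_mul_of_nonneg_left (Real.sqrt_le_sqrt (lp1 _ _ (by omega))) kC
      · rw [not_lt] at h
        rw [potL_step_ge hLC h, mul_assoc]
        have h1 : sl cC e' ≤ s₁ := (sl_anti hC.le h).trans lC
        have h2 : sl cC (e' + 1) ≤ sl cC e' := sl_anti hC.le (Nat.le_succ e')
        have h3 := lp2 b (e' + 1) (hbc.trans h1) (h2.trans h1)
        refine mul_le_mul_of_nonneg_left ((sq2 ?_ h3).trans
          (mul_le_mul_of_nonneg_left (max_le hbc h2) (Real.sqrt_nonneg _))) kC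
        exact le_max_of_le_left (sl_pos hB b).le
  · rcases le_total (sl cC e') (sl cB b) with hcb | hbc
    · right; left
      refine (stepB a b e' hab hcb).trans (add_le_add le_rfl ?_)
      by_cases h : b < LB
      · rw [potL_step_lt h]
        exact mul_le_mul_of_nonneg_left (Real.sqrt_le_sqrt (lp1 _ _ he)) kB
      · rw [not_lt] at h
        rw [potL_step_ge hLB h, mul_assoc]
        have h1 : sl cB b ≤ s₁ := (sl_anti hB.le h).trans lB
        have h2 : sl cB (b + 1) ≤ sl cB b := sl_anti hB.le (Nat.le_succ b)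
        have h3 := lp2 (b + 1) e' (h2.trans h1) (hcb.trans h1)
        refine mul_le_mul_of_nonneg_left ((sq2 ?_ h3).trans
          (mul_le_mul_of_nonneg_left (max_le h2 hcb) (Real.sqrt_nonneg _))) kB
        exact le_max_of_le_left (sl_pos hB _).le
    · right; right
      have hac := hab.trans hbc
      refine (stepC a b e' hac hbc).trans (add_le_add le_rfl ?_)
      by_cases h : e' < LC
      · rw [potL_step_lt h]
        exact mul_le_mul_of_nonneg_left (Real.sqrt_le_sqrt (lp1 _ _ (by omega))) kC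
      · rw [not_lt] at h
        rw [potL_step_ge hLC h, mul_assoc]
        have h1 : sl cC e' ≤ s₁ := (sl_anti hC.le h).trans lC
        have h2 : sl cC (e' + 1) ≤ sl cC e' := sl_anti hC.le (Nat.le_succ e')
        have h3 := lp2 b (e' + 1) (hbc.trans h1) (h2.trans h1)
        refine mul_le_mul_of_nonneg_left ((sq2 ?_ h3).trans
          (mul_le_mul_of_nonneg_left (max_le hbc h2) (Real.sqrt_nonneg _))) kC
        exact le_max_of_le_left (sl_pos hB b).le

theorem sqrt_550 : √(550 : ℝ) ≤ 25 := by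
  rw [show (25 : ℝ) = √(25 ^ 2) by rw [Real.sqrt_sq (by norm_num)]]
  exact Real.sqrt_le_sqrt (by norm_num)

/-- Numbers of the step with the centre `B` or `C`. -/
theorem num_out {x y D D' q : ℝ} (hx : 0 < x) (hxy : x ≤ y) (hD' : 0 ≤ D')
    (hq : 0 ≤ q) :
    x * √(550 * ((x ^ 2)⁻¹ * D + (y ^ 2)⁻¹ * D') * q) ≤ 25 * √(D + D') * √q := by
  have hy : 0 < y := hx.trans_le hxy
  have e1 : x * √(550 * ((x ^ 2)⁻¹ * D + (y ^ 2)⁻¹ * D') * q) =
      √(550 * (D + (x / y) ^ 2 * D') * q) := by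
    conv_lhs => rw [← Real.sqrt_sq hx.le, ← Real.sqrt_mul (sq_nonneg _)]
    congr 1
    rw [Real.sqrt_sq hx.le]
    field_simp
  have h1 : (x / y) ^ 2 ≤ 1 := by
    have h2 : x / y ≤ 1 := (div_le_one hy).2 hxy
    have h3 : 0 ≤ x / y := by positivity
    nlinarith
  have h2 : 550 * (D + (x / y) ^ 2 * D') ≤ 550 * (D + D') := by nlinarith
  rw [e1]
  refine (Real.sqrt_le_sqrt (mul_le_mul_of_nonneg_right h2 hq)).trans ?_
  rw [Real.sqrt_mul' _ hq, Real.sqrt_mul (by norm_num : (0 : ℝ) ≤ 550)]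
  exact mul_le_mul_of_nonneg_right (mul_le_mul_of_nonneg_right sqrt_550 (Real.sqrt_nonneg _))
    (Real.sqrt_nonneg _)

/-- Numbers of the step with the centre `A`. -/
theorem num_in {x y z D D' D'' : ℝ} (hx : 0 < x) (hy : 0 < y) (hz : 0 < z) (hyx : y ≤ x)
    (hzx : z ≤ x) (hD : 0 ≤ D) (hD' : 0 ≤ D') (hD'' : 0 ≤ D'') :
    x * y * z * √(550 * ((x ^ 2)⁻¹ * D + (z ^ 2)⁻¹ * D'') *
      (550 * ((x ^ 2)⁻¹ * D + (y ^ 2)⁻¹ * D'))) ≤
      550 * √((D + D') * (D + D'')) * x := by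
  have e1 : x * y * z * √(550 * ((x ^ 2)⁻¹ * D + (z ^ 2)⁻¹ * D'') *
      (550 * ((x ^ 2)⁻¹ * D + (y ^ 2)⁻¹ * D'))) =
      √((550 * x) ^ 2 * (((y / x) ^ 2 * D + D') * ((z / x) ^ 2 * D + D''))) := by
    have h0 : 0 < x * y * z := by positivity
    conv_lhs => rw [← Real.sqrt_sq h0.le, ← Real.sqrt_mul (sq_nonneg _)]
    congr 1
    field_simp
  have sqle : ∀ {t : ℝ}, 0 < t → t ≤ x → (t / x) ^ 2 ≤ 1 := fun {t} ht h => by
    have h2 : t / x ≤ 1 := (div_le_one hx).2 h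
    have h3 : 0 ≤ t / x := by positivity
    nlinarith
  have h1 : (y / x) ^ 2 * D + D' ≤ D + D' := by nlinarith [sqle hy hyx]
  have h2 : (z / x) ^ 2 * D + D'' ≤ D + D'' := by nlinarith [sqle hz hzx]
  have h3 : ((y / x) ^ 2 * D + D') * ((z / x) ^ 2 * D + D'') ≤ (D + D') * (D + D'') :=
    mul_le_mul h1 h2 (by positivity) (by positivity)
  rw [e1, Real.sqrt_mul (sq_nonneg _), Real.sqrt_sq (by positivity)]
  have h4 := mul_le_mul_of_nonneg_left (Real.sqrt_le_sqrt h3) (show 0 ≤ 550 * x by positivity)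
  refine h4.trans (le_of_eq ?_)
  ring

end

end Vale.Agent.P141.H331
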