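import Vale.Agent.P141.H331.Z1
import Vale.Agent.P141.H331.Low3
import Vale.Agent.P141.H609.Z3

/-!
# P141, line (A): region 3 of the two-slot lowering, all hypotheses in one place

`hZ`: when `A` is low, `C` is lowered first, then the third matrix is split in its light and its
flow part; the flow part is absolutely summable, the light part is lowered in the three slots.
`region1Z` is region 1 with region 3 inserted.
-/

namespace Vale.Agent.P141.H331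

open Finset Matrix Vale.Agent.P075 Vale.Agent.P141.PL Vale.Agent.P141.PL.H588
open Vale.Agent.P141.PL.H804 Vale.Agent.P141.H958 Vale.Agent.P141.H609

noncomputable section

section

variable {N : ℕ} {R : Pt} {c : ℕ → ℤ} {A B C : ℕ → ℤ → ℤ → ℝ} {cA cB cC : ℝ}
  {s : ℕ → Finset Pt} {S YF : (k : ℕ) → Pt → Matrix (Ix k) (Ix k) ℝ}
  {QA QB QC : ℕ → ℤ → ℤ → Prop} {DA DB DC : ℝ}

theorem root_le {D q : ℝ} (_hD : 0 ≤ D) (hq : 0 ≤ q) :
    6 * √(550 * D * q) ≤ 150 * √D * √q := by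
  rw [Real.sqrt_mul' _ hq, Real.sqrt_mul (by norm_num : (0 : ℝ) ≤ 550)]
  have h := mul_le_mul_of_nonneg_right sqrt_550
    (mul_nonneg (Real.sqrt_nonneg D) (Real.sqrt_nonneg q))
  linarith

/-- **The light part**: `LP` bounded from the index `e₀` on, and by the square of the level below
`s₁`. -/
theorem z3q (hc : Pl c) (hs : ∀ k ∈ Icc 1 N, s k ⊆ bx3 N R k (c k)) (hA : 0 < cA) (hB : 0 < cB)
    (hC : 0 < cC)
    (capA : ∀ k ∈ Icc 1 N, ∀ m ∈ s k, Cap k m.1 m.2.1 cA (A k))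
    (capB : ∀ k ∈ Icc 1 N, ∀ m ∈ s k, Cap k m.2.1 m.2.2 cB (B k))
    (capC : ∀ k ∈ Icc 1 N, ∀ m ∈ s k, Cap k m.1 m.2.2 cC (C k))
    (hS : ∀ k ∈ Icc 1 N, ∀ m ∈ s k, (1 - (S k m)ᵀ * S k m).PosSemidef)
    (eA : L2E N R.1 R.2.1 QA A DA) (eB : L2E N R.2.1 R.2.2 QB B DB)
    (eC : L2E N R.1 R.2.2 QC C DC) {D Q κ σ s₁ : ℝ} (hD : DA + DB ≤ D) (hD' : DA + DC ≤ D)
    {a₀ e₀ : ℕ} (hQ : ∀ b e, e₀ ≤ e → LP N s cB cC B C S b e ≤ Q)
    (hκ : ∀ b e, cB / 2 ^ (b - 1) ≤ s₁ → cC / 2 ^ (e - 1) ≤ s₁ →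
      LP N s cB cC B C S b e ≤ κ * max (cB / 2 ^ (b - 1)) (cC / 2 ^ (e - 1)) ^ 2)
    {LB LC : ℕ} (hLB : 1 ≤ LB) (hLC : 1 ≤ LC) (lB : cB / 2 ^ (LB - 1) ≤ s₁)
    (lC : cC / 2 ^ (LC - 1) ≤ s₁) (ha : cA / 2 ^ (a₀ - 1) ≤ σ) :
    U3 N s cA cB cC A B C S a₀ 0 e₀ ≤
      9900 * D * σ + 150 * √D * √Q * (LB + LC) + 600 * √D * √κ * s₁ := by
  have nDA : 0 ≤ DA := (pwr_nonneg ..).trans eA.own
  have nDB : 0 ≤ DB := (pwr_nonneg ..).trans eB.own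
  have nDC : 0 ≤ DC := (pwr_nonneg ..).trans eC.own
  have nD : 0 ≤ D := by linarith
  obtain ⟨Kt, hKt, htail⟩ := U3_tail (N := N) (A := A) (B := B) (C := C) (S := S) hA hB hC
    capA capB capC hS
  have main := low3 (f := U3 N s cA cB cC A B C S) (q := LP N s cB cC B C S) (cA := cA)
    (cB := cB) (cC := cC) (κA := 3300 * D) (κB := 150 * √D) (κC := 150 * √D) (q₀ := Q) (K := κ)
    (s₁ := s₁) (Kt := Kt) (σ := σ) hA hB hC (by positivity) (by positivity) (by positivity) hKt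
    ?_ ?_ ?_ (a := a₀) (b := 0) (e := e₀) hQ hκ ?_ hLB hLC lB lC ha
  · refine main.trans (le_of_eq ?_)
    ring
  · intro a b e hba hea
    have h := z2A (N := N) (R := R) (c := c) (S := S) hs hA hB hC capA capB capC hS a b e
      (prs_AB hc hA hB eA eB a b) (prs_AC hc hA hC eA eC a e)
    refine h.trans (add_le_add le_rfl ?_)
    have h1 := highest_cost' (DA := DA) (DB := DB) (DC := DC) (sl_pos hA a) (sl_pos hB b)
      (sl_pos hC e) hba hea nDA nDB nDC hD hD'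
    simp only [sl] at h1 ⊢
    linarith
  · intro a b e hab heb
    have h := z2 (N := N) (R := R) (c := c) (C := C) (cC := cC) (S := S) hs hA hB capA capB a b e
      (prs_AB hc hA hB eA eB a b) le_rfl
    refine h.trans (add_le_add le_rfl ?_)
    have h1 := highest_cost (DA := DA) (DB := DB) (q := LP N s cB cC B C S (b + 1) e)
      (sl_pos hA a) hab nDB hD (LP_nonneg _ _)
    have h2 := root_le nD (LP_nonneg (N := N) (s := s) (cB := cB) (cC := cC) (B := B) (C := C)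
      (S := S) (b + 1) e)
    simp only [sl] at h1
    linarith
  · intro a b e hae hbe
    have h := z2C (N := N) (R := R) (c := c) (B := B) (cB := cB) (S := S) hs hA hC capA capC a b e
      (prs_AC hc hA hC eA eC a e) le_rfl
    refine h.trans (add_le_add le_rfl ?_)
    have h1 := highest_cost (DA := DA) (DB := DC) (q := LP N s cB cC B C S b (e + 1))
      (sl_pos hA a) hae nDC hD' (LP_nonneg _ _)
    have h2 := root_le nD (LP_nonneg (N := N) (s := s) (cB := cB) (cC := cC) (B := B) (C := C)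
      (S := S) b (e + 1))
    simp only [sl] at h1
    linarith
  · intro a b e
    have h := htail a b e
    have mono : ∀ i : ℕ, i ≤ a + b + e → Kt * ((2 : ℝ) ^ (a + b + e))⁻¹ ≤ Kt * ((2 : ℝ) ^ i)⁻¹ :=
      fun i hi => mul_le_mul_of_nonneg_left (inv_anti₀ (by positivity)
        (pow_le_pow_right₀ (by norm_num) hi)) hKt
    exact ⟨h.trans (mono a (by omega)), h.trans (mono b (by omega)), h.trans (mono e (by omega))⟩

/-- `C` is lowered down to the level `x`. -/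
theorem c_down {W : (k : ℕ) → Pt → Matrix (Ix k) (Ix k) ℝ} {x κC : ℝ} (hC : 0 ≤ cC)
    (hκC : 0 ≤ κC) {a : ℕ}
    (hV : ∀ e, x < cC / 2 ^ (e - 1) → VW N s cA cC A C W a e ≤ κC) {LC : ℕ}
    (lC : cC / 2 ^ (LC - 1) ≤ x) (e : ℕ) :
    ∃ e', cC / 2 ^ (e' - 1) ≤ x ∧
      UW N s cA cC A C W a e ≤ κC * LC + UW N s cA cC A C W a e' := by
  have main : ∀ n e : ℕ, LC - e ≤ n → ∃ e', cC / 2 ^ (e' - 1) ≤ x ∧
      UW N s cA cC A C W a e ≤ κC * (LC - e : ℕ) + UW N s cA cC A C W a e' := by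
    intro n
    induction n with
    | zero =>
      intro e h
      refine ⟨e, (lev_anti hC (show LC ≤ e by omega)).trans lC, ?_⟩
      have : 0 ≤ κC * (LC - e : ℕ) := by positivity
      linarith
    | succ n ih =>
      intro e h
      by_cases h1 : cC / 2 ^ (e - 1) ≤ x
      · refine ⟨e, h1, ?_⟩
        have : 0 ≤ κC * (LC - e : ℕ) := by positivity
        linarith
      · rw [not_le] at h1
        have h2 : e < LC := by
          by_contra h3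
          have h4 := (lev_anti hC (not_lt.1 h3)).trans lC
          linarith
        obtain ⟨e', h3, h4⟩ := ih (e + 1) (by omega)
        refine ⟨e', h3, ?_⟩
        have h5 := (c_step (N := N) (s := s) (A := A) (C := C) (cA := cA) (cC := cC) (W := W)
          a e).trans (add_le_add le_rfl (hV e h1))
        have h6 : ((LC - e : ℕ) : ℝ) = (LC - (e + 1) : ℕ) + 1 := by
          rw [show LC - e = (LC - (e + 1)) + 1 by omega]
          push_cast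
          ring
        rw [h6]
        linarith
  obtain ⟨e', h1, h2⟩ := main (LC - e) e le_rfl
  refine ⟨e', h1, h2.trans (add_le_add ?_ le_rfl)⟩
  exact mul_le_mul_of_nonneg_left (by exact_mod_cast Nat.sub_le LC e) hκC

/-- **Region 3** (the hypothesis `hZ` of `lower2` and `region1`). -/
theorem hZ (hc : Pl c) (hs : ∀ k ∈ Icc 1 N, s k ⊆ bx3 N R k (c k)) (hA : 0 < cA) (hB : 0 < cB)
    (hC : 0 < cC)
    (capA : ∀ k ∈ Icc 1 N, ∀ m ∈ s k, Cap k m.1 m.2.1 cA (A k))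
    (capB : ∀ k ∈ Icc 1 N, ∀ m ∈ s k, Cap k m.2.1 m.2.2 cB (B k))
    (capC : ∀ k ∈ Icc 1 N, ∀ m ∈ s k, Cap k m.1 m.2.2 cC (C k))
    (hS : ∀ k ∈ Icc 1 N, ∀ m ∈ s k, (1 - (S k m)ᵀ * S k m).PosSemidef)
    (eA : L2E N R.1 R.2.1 QA A DA) (eB : L2E N R.2.1 R.2.2 QB B DB)
    (eC : L2E N R.1 R.2.2 QC C DC) {D Q κ σ ρ s₁ w κC : ℝ} (hD : DA + DB ≤ D) (hD' : DA + DC ≤ D)
    (hρ : 0 < ρ) (hκC : 0 ≤ κC)
    (hV : ∀ a e, ρ * (cA / 2 ^ (a - 1)) < cC / 2 ^ (e - 1) → VW N s cA cC A C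
      (fun k m => (YL cB B S 0 k m + YF k m) * (bl k (A k) m.1 m.2.1)ᵀ) a e ≤ κC)
    (hw : ∑ k ∈ Icc 1 N, ∑ m ∈ s k, (YF k m * (YF k m)ᵀ).trace ≤ w)
    (hQ : ∀ b e, cC / 2 ^ (e - 1) ≤ ρ * σ → LP N s cB cC B C S b e ≤ Q)
    (hκ : ∀ b e, cB / 2 ^ (b - 1) ≤ s₁ → cC / 2 ^ (e - 1) ≤ s₁ →
      LP N s cB cC B C S b e ≤ κ * max (cB / 2 ^ (b - 1)) (cC / 2 ^ (e - 1)) ^ 2)
    {LB LC LC' : ℕ} (hLB : 1 ≤ LB) (hLC : 1 ≤ LC) (lB : cB / 2 ^ (LB - 1) ≤ s₁)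
    (lC : cC / 2 ^ (LC - 1) ≤ s₁) (lC' : cC / 2 ^ (LC' - 1) ≤ ρ * σ) (a e : ℕ)
    (ha : cA / 2 ^ (a - 1) < σ) :
    UW N s cA cC A C (fun k m => (YL cB B S 0 k m + YF k m) * (bl k (A k) m.1 m.2.1)ᵀ) a e ≤
      κC * LC' + 150 * √(w * ((ρ * σ) ^ 2 * DA + σ ^ 2 * DC)) +
        (9900 * D * σ + 150 * √D * √Q * (LB + LC) + 600 * √D * √κ * s₁) := by
  have nDA : 0 ≤ DA := (pwr_nonneg ..).trans eA.own
  have nDC : 0 ≤ DC := (pwr_nonneg ..).trans eC.own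
  have nw : 0 ≤ w := le_trans (sum_nonneg fun k _ => sum_nonneg fun m _ =>
    (psd_mul_transpose (YF k m)).trace_nonneg) hw
  obtain ⟨e', h1, h2⟩ := c_down (N := N) (s := s) (A := A) (C := C) (cA := cA) (cC := cC)
    (W := fun k m => (YL cB B S 0 k m + YF k m) * (bl k (A k) m.1 m.2.1)ᵀ) (x := ρ * σ) hC.le hκC
    (a := a) (fun e he => hV a e ((mul_lt_mul_of_pos_left ha hρ).trans he)) lC' e
  have h3 : UW N s cA cC A C
      (fun k m => (YL cB B S 0 k m + YF k m) * (bl k (A k) m.1 m.2.1)ᵀ) a e' ≤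
      U3 N s cA cB cC A B C S a 0 e' +
        UW N s cA cC A C (fun k m => YF k m * (bl k (A k) m.1 m.2.1)ᵀ) a e' := by
    have h := UW_add (N := N) (s := s) (A := A) (C := C) (cA := cA) (cC := cC)
      (fun k m => YL cB B S 0 k m * (bl k (A k) m.1 m.2.1)ᵀ)
      (fun k m => YF k m * (bl k (A k) m.1 m.2.1)ᵀ) a e'
    simp only [← Matrix.add_mul] at h
    exact h
  have h4 := z3q (a₀ := a) (e₀ := e') hc hs hA hB hC capA capB capC hS eA eB eC hD hD'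
    (fun b e he => hQ b e ((lev_anti hC.le he).trans h1)) hκ hLB hLC lB lC ha.le
  have h5 := z1E hc hs hA hC capA capC a e' eA eC hw
  have h6 : √(w * ((cC / 2 ^ (e' - 1)) ^ 2 * DA + (cA / 2 ^ (a - 1)) ^ 2 * DC)) ≤
      √(w * ((ρ * σ) ^ 2 * DA + σ ^ 2 * DC)) := by
    refine Real.sqrt_le_sqrt (mul_le_mul_of_nonneg_left ?_ nw)
    have q1 : (cC / 2 ^ (e' - 1)) ^ 2 ≤ (ρ * σ) ^ 2 :=
      pow_le_pow_left₀ (by positivity) h1 2
    have q2 : (cA / 2 ^ (a - 1)) ^ 2 ≤ σ ^ 2 := pow_le_pow_left₀ (by positivity) ha.le 2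
    nlinarith
  linarith

/-- **Regions 1 and 3 together**: the gap part, all hypotheses. -/
theorem region1Z {cP GA : ℝ} (hc : Pl c) (hs : ∀ k ∈ Icc 1 N, s k ⊆ bx3 N R k (c k)) (hA : 0 < cA)
    (hB : 0 < cB) (hC : 0 < cC)
    (capA : ∀ k ∈ Icc 1 N, ∀ m ∈ s k, Cap k m.1 m.2.1 cA (A k))
    (capB : ∀ k ∈ Icc 1 N, ∀ m ∈ s k, Cap k m.2.1 m.2.2 cB (B k))
    (capC : ∀ k ∈ Icc 1 N, ∀ m ∈ s k, Cap k m.1 m.2.2 cC (C k)) (hP : 1 ≤ cP)
    (sA : S4E N R.1 R.2.1 QA A GA cP) (hGA : 0 < GA) (hDC : 0 < DC)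
    (hS : ∀ k ∈ Icc 1 N, ∀ m ∈ s k, (1 - (S k m)ᵀ * S k m).PosSemidef)
    (eA : L2E N R.1 R.2.1 QA A DA) (eB : L2E N R.2.1 R.2.2 QB B DB)
    (eC : L2E N R.1 R.2.2 QC C DC) {D Q κ σ ρ s₁ w v κC : ℝ} (hD : DA + DB ≤ D)
    (hD' : DA + DC ≤ D) (hσ : 0 < σ) (hρ : 0 < ρ) (hκC : 0 ≤ κC)
    (hv : ∑ k ∈ Icc 1 N, ∑ m ∈ s k, (4 ^ k : ℝ)⁻¹ *
      (((YL cB B S 0 k m + YF k m) * (bl k (A k) m.1 m.2.1)ᵀ) *
        ((YL cB B S 0 k m + YF k m) * (bl k (A k) m.1 m.2.1)ᵀ)ᵀ).trace ≤ v)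
    (hV : ∀ a e, ρ * (cA / 2 ^ (a - 1)) < cC / 2 ^ (e - 1) → VW N s cA cC A C
      (fun k m => (YL cB B S 0 k m + YF k m) * (bl k (A k) m.1 m.2.1)ᵀ) a e ≤ κC)
    (hw : ∑ k ∈ Icc 1 N, ∑ m ∈ s k, (YF k m * (YF k m)ᵀ).trace ≤ w)
    (hQ : ∀ b e, cC / 2 ^ (e - 1) ≤ ρ * σ → LP N s cB cC B C S b e ≤ Q)
    (hκ : ∀ b e, cB / 2 ^ (b - 1) ≤ s₁ → cC / 2 ^ (e - 1) ≤ s₁ →
      LP N s cB cC B C S b e ≤ κ * max (cB / 2 ^ (b - 1)) (cC / 2 ^ (e - 1)) ^ 2)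
    {LA LB LC LC' : ℕ} (hLB : 1 ≤ LB) (hLC : 1 ≤ LC) (lA : cA / 2 ^ (LA - 1) < σ)
    (lB : cB / 2 ^ (LB - 1) ≤ s₁) (lC : cC / 2 ^ (LC - 1) ≤ s₁)
    (lC' : cC / 2 ^ (LC' - 1) ≤ ρ * σ) :
    ∑ k ∈ Icc 1 N, ∑ m ∈ s k, |(2 ^ k : ℝ)⁻¹ *
        (((YL cB B S 0 k m + YF k m) * (bl k (A k) m.1 m.2.1)ᵀ) * hd k *
          bl k (C k) m.1 m.2.2).trace| ≤
      6 * √(v * (8800 * cP * max DC (ρ / σ * √(GA * DC)))) * LA + κC * LC' +
        (κC * LC' + 150 * √(w * ((ρ * σ) ^ 2 * DA + σ ^ 2 * DC)) +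
          (9900 * D * σ + 150 * √D * √Q * (LB + LC) + 600 * √D * √κ * s₁)) :=
  region1 hc hs hA hC capC hP sA eC hGA hDC hv hρ hσ hκC
    (fun a e ha => hZ hc hs hA hB hC capA capB capC hS eA eB eC hD hD' hρ hκC hV hw hQ hκ hLB
      hLC lB lC lC' a e ha)
    (fun a e _ h => hV a e h) lA lC'

end

end

end Vale.Agent.P141.H331
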