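import Mathlib

/-!
# P141, line (A): three index induction with potentials

Every state allows one of three steps, the cost of a step is the decrease of the potential of its
index; the function decays in each index.
-/

namespace Vale.Agent.P141.H331

noncomputable section

/-- Three index induction with potentials. -/
theorem ind3p {f : ℕ → ℕ → ℕ → ℝ} {P Q R : ℕ → ℝ} {K : ℝ} (hP : ∀ a, 0 ≤ P a)
    (hQ : ∀ b, 0 ≤ Q b) (hR : ∀ e, 0 ≤ R e)
    (tail : ∀ a b e, f a b e ≤ K * (2 ^ a)⁻¹ ∧ f a b e ≤ K * (2 ^ b)⁻¹ ∧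
      f a b e ≤ K * (2 ^ e)⁻¹) (hK : 0 ≤ K) {a₀ b₀ e₀ : ℕ}
    (step : ∀ a b e, a₀ ≤ a → b₀ ≤ b → e₀ ≤ e →
      f a b e ≤ f (a + 1) b e + (P a - P (a + 1)) ∨
      f a b e ≤ f a (b + 1) e + (Q b - Q (b + 1)) ∨
      f a b e ≤ f a b (e + 1) + (R e - R (e + 1))) :
    f a₀ b₀ e₀ ≤ P a₀ + Q b₀ + R e₀ := by
  have main : ∀ n a b e : ℕ, a₀ ≤ a → b₀ ≤ b → e₀ ≤ e →
      f a b e ≤ P a + Q b + R e + K * (2 ^ ((n + a + b + e) / 3))⁻¹ := by
    intro n
    induction n with
    | zero =>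
      intro a b e _ _ _
      have h1 : (0 + a + b + e) / 3 ≤ a ∨ (0 + a + b + e) / 3 ≤ b ∨
          (0 + a + b + e) / 3 ≤ e := by omega
      have mono : ∀ {i j : ℕ}, i ≤ j → K * ((2 : ℝ) ^ j)⁻¹ ≤ K * ((2 : ℝ) ^ i)⁻¹ :=
        fun hij => mul_le_mul_of_nonneg_left (inv_anti₀ (by positivity)
          (pow_le_pow_right₀ (by norm_num) hij)) hK
      obtain ⟨t1, t2, t3⟩ := tail a b e
      have := hP a
      have := hQ b
      have := hR e
      rcases h1 with h | h | h
      · have := mono h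
        linarith
      · have := mono h
        linarith
      · have := mono h
        linarith
    | succ n ih =>
      intro a b e ha hb he
      rcases step a b e ha hb he with h | h | h
      · have h2 := ih (a + 1) b e (by omega) hb he
        rw [show n + 1 + a + b + e = n + (a + 1) + b + e by ring]
        linarith
      · have h2 := ih a (b + 1) e ha (by omega) he
        rw [show n + 1 + a + b + e = n + a + (b + 1) + e by ring]
        linarith
      · have h2 := ih a b (e + 1) ha hb (by omega)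
        rw [show n + 1 + a + b + e = n + a + b + (e + 1) by ring]
        linarith
  have lim : Filter.Tendsto (fun n : ℕ => P a₀ + Q b₀ + R e₀ + K * ((2 : ℝ) ^ n)⁻¹)
      Filter.atTop (nhds (P a₀ + Q b₀ + R e₀ + K * 0)) := by
    refine tendsto_const_nhds.add (tendsto_const_nhds.mul ?_)
    have h := tendsto_pow_atTop_nhds_zero_of_lt_one (r := (2 : ℝ)⁻¹) (by norm_num) (by norm_num)
    simpa [inv_pow] using h
  rw [mul_zero, add_zero] at lim
  refine ge_of_tendsto' lim fun n => ?_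
  have h := main (3 * n) a₀ b₀ e₀ le_rfl le_rfl le_rfl
  refine h.trans (add_le_add le_rfl ?_)
  refine mul_le_mul_of_nonneg_left (inv_anti₀ (by positivity)
    (pow_le_pow_right₀ (by norm_num) ?_)) hK
  omega

/-- The level of the index `a`. -/
def sl (c : ℝ) (a : ℕ) : ℝ := c / 2 ^ (a - 1)

theorem sl_pos {c : ℝ} (hc : 0 < c) (a : ℕ) : 0 < sl c a := by unfold sl; positivity

theorem sl_succ (c : ℝ) {a : ℕ} (ha : 1 ≤ a) : sl c (a + 1) = sl c a / 2 := by
  obtain ⟨i, rfl⟩ : ∃ i, a = i + 1 := ⟨a - 1, by omega⟩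
  unfold sl
  simp only [Nat.add_sub_cancel]
  rw [pow_succ]
  field_simp

theorem sl_anti {c : ℝ} (hc : 0 ≤ c) {i j : ℕ} (h : i ≤ j) : sl c j ≤ sl c i := by
  unfold sl
  exact div_le_div_of_nonneg_left hc (by positivity) (pow_le_pow_right₀ (by norm_num) (by omega))

/-- The potential of a geometric cost. -/
def pot (c κ : ℝ) (a : ℕ) : ℝ := 2 * κ * sl c a + if a = 0 then κ * c else 0

theorem pot_nonneg {c κ : ℝ} (hc : 0 ≤ c) (hκ : 0 ≤ κ) (a : ℕ) : 0 ≤ pot c κ a := by
  unfold pot sl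
  split_ifs <;> positivity

theorem pot_step {c κ : ℝ} (a : ℕ) : pot c κ a - pot c κ (a + 1) = κ * sl c a := by
  unfold pot
  rw [if_neg (Nat.succ_ne_zero a)]
  rcases Nat.eq_zero_or_pos a with h | h
  · subst h
    rw [if_pos rfl]
    simp [sl]
  · rw [if_neg (by omega), sl_succ c h]
    ring

theorem pot_le {c κ σ : ℝ} (hc : 0 ≤ c) (hκ : 0 ≤ κ) {a : ℕ} (h : sl c a ≤ σ) :
    pot c κ a ≤ 3 * κ * σ := by
  unfold pot
  have h0 : 0 ≤ sl c a := by unfold sl; positivity
  split_ifs with h1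
  · subst h1
    have : sl c 0 = c := by simp [sl]
    rw [this] at h ⊢
    nlinarith
  · nlinarith

/-- The potential of a constant cost down to the index `L`, then a geometric one. -/
def potL (c κ κ' : ℝ) (L : ℕ) (b : ℕ) : ℝ := κ * (L - b : ℕ) + 2 * κ' * sl c (max b L)

theorem potL_nonneg {c κ κ' : ℝ} (hc : 0 ≤ c) (hκ : 0 ≤ κ) (hκ' : 0 ≤ κ') (L b : ℕ) :
    0 ≤ potL c κ κ' L b := by
  unfold potL sl
  positivity

theorem potL_step_lt {c κ κ' : ℝ} {L b : ℕ} (h : b < L) :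
    potL c κ κ' L b - potL c κ κ' L (b + 1) = κ := by
  unfold potL
  rw [max_eq_right h.le, max_eq_right (Nat.succ_le_of_lt h)]
  have h4 : ((L - b : ℕ) : ℝ) = (L - (b + 1) : ℕ) + 1 := by
    rw [show L - b = (L - (b + 1)) + 1 by omega]
    push_cast
    ring
  rw [h4]
  ring

theorem potL_step_ge {c κ κ' : ℝ} {L b : ℕ} (hL : 1 ≤ L) (h : L ≤ b) :
    potL c κ κ' L b - potL c κ κ' L (b + 1) = κ' * sl c b := by
  unfold potL
  rw [max_eq_left h, max_eq_left (by omega), sl_succ c (by omega),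
    show L - b = 0 by omega, show L - (b + 1) = 0 by omega]
  ring

theorem potL_le {c κ κ' s : ℝ} (hc : 0 ≤ c) (hκ : 0 ≤ κ) (hκ' : 0 ≤ κ') {L b : ℕ}
    (h : sl c L ≤ s) : potL c κ κ' L b ≤ κ * L + 2 * κ' * s := by
  unfold potL
  have h1 : ((L - b : ℕ) : ℝ) ≤ L := by exact_mod_cast Nat.sub_le L b
  have h2 := sl_anti hc (le_max_right b L)
  have h3 := mul_le_mul_of_nonneg_left h1 hκ
  have h4 := mul_le_mul_of_nonneg_left (h2.trans h) hκ'
  linarith

end

end Vale.Agent.P141.H331
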