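import Vale.Agent.P141.H331.SkelTZU
import Vale.Agent.P141.H579.MkCap
import Vale.Agent.P141.H64.ZFam
import Vale.Agent.P141.H576.ZGap
import Vale.Agent.P141.H622.ZMass
import Vale.Agent.P141.H672.ZFlow
import Vale.Agent.P141.H775.TileZ

/-!
# P141, line (A): the gap part from its two last leaves

`nz_of : MkT ZLight → LeafCr → CStUV DuS DvS NZ`.
-/

namespace Vale.Agent.P141.H331

open Vale.Agent.P141.H401 (NZ DuS DvS)

/-- **The price of the gap part from the light pair and the crude pair.** -/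
theorem nz_of (H5 : MkT ZLight) (H7 : LeafCr) : H401.CStUV DuS DvS NZ :=
  cst_NZU H579.mkT_ZCap H64.mkT_ZFam H576.mkT_gap H622.mkT_ZMass H5 H672.mkT_ZFlow H7 H775.tileZ

/-- the same, light pair with the small fibres -/
theorem nz_ofH (H5 : MkTH HUV ZLight) (H7 : LeafCr) : H401.CStUV DuS DvS NZ :=
  H401.CStUV.of_mk (H401.MkFU.toUV (mkFU_ZD (mkTH_all HUV_noCD (H579.mkT_ZCap.toH HUV)
    (H64.mkT_ZFam.toH HUV) (H576.mkT_gap.toH HUV) (H622.mkT_ZMass.toH HUV) H5
    (H672.mkT_ZFlow.toH HUV) H7))) (partF_NZ H775.tileZ)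

end Vale.Agent.P141.H331
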