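import Vale.Agent.P141.H331.Cr
import Vale.Agent.P141.H213.RowY
import Vale.Agent.P141.H331.NZof
import Vale.Agent.P141.H80.ZLight

/-!
# P141, line (A): the gap part

`rowCr : RowCr`, `leafCr : LeafCr`, **`nz : CStUV DuS DvS NZ`**.
-/

namespace Vale.Agent.P141.H331

open Finset Matrix Vale.Agent.P075 Vale.Agent.P141.PL Vale.Agent.P141.PL.H588
open Vale.Agent.P141.PL.H804 Vale.Agent.P141.H958 Vale.Agent.P141.H338 Vale.Agent.P141.H609
open Vale.Agent.P141.H511 (BL CL)
open Vale.Agent.P141.H677 (cP cP_ix rv)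
open Vale.Agent.P141.H677.Sk (lam1)
open Vale.Agent.P141.H401 (DuS DvS NZ cb mC)

noncomputable section

open scoped Classical

/-- **The rows.** -/
theorem rowCr : RowCr := by
  intro ι _ _ p n ez F2 F3 o K x s r U u v Q2 Q3 L e t0 ht hs hr he0 hez hKn q2 q3 fU fP he hm
  have hl1 : 0 < lam1 p s r := H401.lam1_pos ht hs hr
  have hse : 0 < √ez := Real.sqrt_pos.2 hez
  refine ⟨fun k hk y hy n' _ => ?_, fun k hk y hy n' hn => ?_⟩
  · have h := H213.rC_mC (p := p) (U := U) (T0 := t0) (S := ix K x.1) (T := ix K x.2.2) q2 hez.le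
      hl1.le hKn fP he hm (Subset.refl (iv K t0)) (c := fun i k => cP o i k)
      (fun k i j h => cP_ix o h) k hk y hy n'
    have e1 : ∀ i : ℤ, (if cP o i (k + 1) - ix (k + 1) y - n' ∈ iv (K - (k + 1)) (ix K x.2.2) then
        ∑ x3 ∈ iv (k + 1) (cP o i (k + 1) - ix (k + 1) y - n'), ∑ l ∈ lbs L,
          CL e (fun z x1 => (√ez)⁻¹ • mC p U K v F2 i (k + 1) z x1) l x3 y ^ 2 else 0) =
        ez⁻¹ * (if cP o i (k + 1) - ix (k + 1) y - n' ∈ iv (K - (k + 1)) (ix K x.2.2) then
        ∑ x3 ∈ iv (k + 1) (cP o i (k + 1) - ix (k + 1) y - n'), ∑ l ∈ lbs L,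
          cu e (mC p U K v F2 i (k + 1) x3 y) l ^ 2 else 0) := by
      intro i
      split_ifs
      · rw [mul_sum]
        refine sum_congr rfl fun z _ => ?_
        rw [mul_sum]
        refine sum_congr rfl fun l _ => ?_
        have e2 : CL e (fun z x1 => (√ez)⁻¹ • mC p U K v F2 i (k + 1) z x1) l z y =
            (√ez)⁻¹ * cu e (mC p U K v F2 i (k + 1) z y) l :=
          cu_smul (e := e) (√ez)⁻¹ (mC p U K v F2 i (k + 1) z y) l
        rw [e2, mul_pow, inv_pow, Real.sq_sqrt hez.le]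
      · rw [mul_zero]
    refine le_trans (le_of_eq (sum_congr rfl fun i _ => e1 i)) ?_
    rw [← mul_sum, inv_mul_le_iff₀ hez]
    refine h.trans ?_
    unfold rhoZ
    have e3 : (2 : ℝ) ^ (k + 1) * (2 ^ K * (2 * ez * lam1 p s r)) =
        ez * (2 ^ (k + 1) * (2 ^ K * (2 * 1 * lam1 p s r))) := by ring
    rw [e3]
    gcongr
    linarith
  · have h := H213.rB_cb (p := p) (U := U) (s := s) (r := r) (T0 := t0) (S := ix K x.1)
      (T := ix K x.2.1) q3 he0 hl1.le hKn fU he hm (Subset.refl (iv K t0)) k hk y hy n' hn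
    refine le_trans (le_of_eq rfl) (h.trans ?_)
    unfold rhoZ
    gcongr
    linarith

/-- **The leaf of the crude pair.** -/
theorem leafCr : LeafCr := leafCr_of rowCr

/-- **The price of the gap part**, data after the static cuts. -/
theorem nz : H401.CStUV DuS DvS NZ := nz_of H80.mkT_ZLight leafCr

end

end Vale.Agent.P141.H331
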