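import Vale.Agent.P141.H331.SkelTZV
import Vale.Agent.P141.H401.CutUV

/-!
# P141, line (A): the gap part after the static cuts `DuS`, `DvS`

* `HUV` : the fibres of `u` and `v` on the alive squares are at most `lam1` (`FibU`, `FibP`);
* `LeafCr = MkTH HUV ZCrude` : the leaf of the crude pair, it may use `HUV`;
* `mkFU_ZD : MkTH HUV ZT → MkFU ZD`;
* `cst_NZU : MkT ZCap → .. → MkT ZFlow → LeafCr → TileZ → CStUV DuS DvS NZ`.
-/

namespace Vale.Agent.P141.H331

open Finset Matrix Vale.Agent.P075 Vale.Agent.P141.PL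
open Vale.Agent.P141.PL.H315 (Tri)
open Vale.Agent.P141.H401 (PartX PartY PartF NZ PartQ FibU FibP DuS DvS MkFU fib_DuS fib_DvS)

noncomputable section

open scoped Classical

/-- the fibres of `u` and of `v` on the alive squares are at most `lam1` -/
def HUV : HypD := fun _ _ _ p K x s r U u v => FibU p K x s r U u ∧ FibP p K x s r U v

theorem HUV_noCD : HUV.NoCD := fun _ _ _ _ _ _ _ _ _ _ _ _ h => h

theorem hypS_HUV : HypS HUV DuS DvS :=
  ⟨8, by norm_num, fun _ _ _ _ _ _ _ _ _ _ _ _ _ _ ht ht1 hd0 hd hs hr h =>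
    ⟨fib_DuS ht ht1 hd0 hd hs hr h, fib_DvS ht ht1 hd0 hd hs hr h⟩⟩

/-- **Leaf of the crude pair** (822, 433, 213, 676): it may use the small fibres. -/
def LeafCr : Prop := MkTH HUV ZCrude

/-- **The bundle, makers with small fibres.** -/
theorem mkFU_ZD (H : MkTH HUV ZT) : MkFU ZD := by
  have h := mkZH H
  unfold MkH PartQ at h
  unfold H401.MkFU PartQ
  refine H401.PartY.mono h ?_
  intro ι _ _ p n ez F1 F2 F3 o K x s r U g u v B _ _ _ _ _ _ k1 Q1 Q2 Q3 q1 q2 q3 f1 f2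
  exact k1 Q1 Q2 Q3 q1 q2 q3 ⟨f1, f2⟩

/-- **The price of the gap part, data after the static cuts.** -/
theorem cst_NZU (H1 : MkT ZCap) (H2 : MkT ZFam) (H3 : MkT ZGap) (H4 : MkT ZMass)
    (H5 : MkT ZLight) (H6 : MkT ZFlow) (H7 : LeafCr) (HT : TileZ) : H401.CStUV DuS DvS NZ :=
  H401.CStUV.of_mk (MkFU.toUV (mkFU_ZD (mkTH_all HUV_noCD (H1.toH HUV) (H2.toH HUV) (H3.toH HUV)
    (H4.toH HUV) (H5.toH HUV) (H6.toH HUV) H7))) (partF_NZ HT)

end

end Vale.Agent.P141.H331
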