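import Vale.Agent.P141.H331.SkelTZ
import Vale.Agent.P141.H305.CutU
import Vale.Agent.P141.H401.DvS

/-!
# P141, line (A): skeleton of the gap part, makers with a hypothesis on the data

`MkTH P Z` : the definite families have the field `Z` when the class data have the property `P`
(the small fibres of `u` and `v` after the static cuts).

* `MkT.toH` : a maker for all class data; `MkTH.and`, `mkTH_all`;
* `mkZH` : the bundle `ZD` of the data with `P`;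
* `cst_NZH` : `CStUV Du Dv NZ` when the data with `lo Du u`, `lo Dv v` have `P`.
-/

namespace Vale.Agent.P141.H331

open Finset Matrix Vale.Agent.P075 Vale.Agent.P141.PL Vale.Agent.P141.PL.H588
open Vale.Agent.P141.PL.H804 Vale.Agent.P141.H958 Vale.Agent.P141.H338 Vale.Agent.P141.H609
open Vale.Agent.P141.H677 (rt)
open Vale.Agent.P141.PL.H315 (Tri)
open Vale.Agent.P141.H48 (US ES BSl)
open Vale.Agent.P141.H401 (PartX PartY PartF NZ PartQ MkSt MkStV CStV CSt cA cb mC Sel lo Bun)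
open Vale.Agent.P141.H305 (ClsM kapM)
open Vale.Agent.P141.H305.CutU (MkStUV CStUV ClsM_loU)

noncomputable section

open scoped Classical

/-- properties of the vectors of the class -/
abbrev HypD : Type 1 :=
  ∀ (ι : Type) [Fintype ι] [DecidableEq ι], H401.Num → ℕ → Pt → ℝ → ℝ → Tri →
    (ℤ → ℤ → ι → ℝ) → (ℤ → ℤ → ι → ℝ) → Prop

/-- the property does not see the constant of the bundle -/
def HypD.NoCD (P : HypD) : Prop :=
  ∀ (ι : Type) [Fintype ι] [DecidableEq ι] (p : H401.Num) (CD : ℝ) (K : ℕ) (x : Pt) (s r : ℝ)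
    (U : Tri) (u v : ℤ → ℤ → ι → ℝ), P ι p K x s r U u v → P ι { p with CD := CD } K x s r U u v

/-- **Leaves `MkTH P Z`**: the definite families of data with `P` have the field `Z`. -/
def MkTH (P : HypD) (Z : ZP) : Prop :=
  PartQ fun ι _ _ p _n ez F1 F2 F3 o K x s r U g u v Q1 _Q2 Q3 _B => P ι p K x s r U u v → 0 < ez →
    ∀ (L : ℕ) (e : ι → ℤ), Function.Injective e → (∀ i, e i ∈ lbs L) → ∀ t0 ∈ rt (cx K x),
      Z ι p o K x s r U u L e t0 (cA p s r U K g F1 Q1) (cb p s r U K u F3 Q3)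
        fun x0 k z x1 => (√ez)⁻¹ • mC p U K v F2 x0 k z x1

/-- **Makers of the bundle `D` for data with `P`** -/
def MkH (P : HypD) (D : Bun) : Prop :=
  PartQ fun ι _ _ p n ez F1 F2 F3 o K x s r U g u v Q1 _Q2 Q3 _B => P ι p K x s r U u v →
    D ι p n ez F1 F2 F3 o K x s r U g u v (cA p s r U K g F1 Q1) (cb p s r U K u F3 Q3)
      (mC p U K v F2)

theorem MkT.toH {Z : ZP} (P : HypD) (H : MkT Z) : MkTH P Z := by
  unfold MkT PartQ at H
  unfold MkTH PartQ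
  refine PartY.mono H ?_
  intro ι _ _ p n ez F1 F2 F3 o K x s r U g u v B _ _ _ _ _ _ k1 Q1 Q2 Q3 q1 q2 q3 _
  exact k1 Q1 Q2 Q3 q1 q2 q3

/-- a weaker hypothesis -/
theorem MkTH.imp {P P' : HypD} {Z : ZP} (H : MkTH P Z)
    (h : ∀ (ι : Type) [Fintype ι] [DecidableEq ι] (p : H401.Num) (K : ℕ) (x : Pt) (s r : ℝ)
      (U : Tri) (u v : ℤ → ℤ → ι → ℝ), P' ι p K x s r U u v → P ι p K x s r U u v) :
    MkTH P' Z := by
  unfold MkTH PartQ at H ⊢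
  refine PartY.mono H ?_
  intro ι _ _ p n ez F1 F2 F3 o K x s r U g u v B _ _ _ _ _ _ k1 Q1 Q2 Q3 q1 q2 q3 hP
  exact k1 Q1 Q2 Q3 q1 q2 q3 (h ι p K x s r U u v hP)

/-- **Two fields together.** -/
theorem MkTH.and {P : HypD} (hP : P.NoCD) {Z Z' : ZP} (hZ : MonoZ Z) (hZ' : MonoZ Z')
    (H : MkTH P Z) (H' : MkTH P Z') : MkTH P (ZP.and Z Z') := by
  unfold HypD.NoCD at hP
  unfold MkTH PartQ at H H' ⊢
  refine PartY.add H H' ?_
  intro ι _ _ p CD1 CD2 n ez F1 F2 F3 o K x s r U g u v B1 B2 B ht hs hr ho _ h1 _ h2 _ _ k1 k2 _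
    Q1 Q2 Q3 q1 q2 q3 hp hez L e he hm t0 ht0
  exact ⟨hZ ι p CD1 o K x s r U u L e t0 _ _ _ ht hs hr h1
      (k1 Q1 Q2 Q3 q1 q2 q3 (hP ι p CD1 K x s r U u v hp) hez L e he hm t0 ht0),
    hZ' ι p CD2 o K x s r U u L e t0 _ _ _ ht hs hr h2
      (k2 Q1 Q2 Q3 q1 q2 q3 (hP ι p CD2 K x s r U u v hp) hez L e he hm t0 ht0)⟩

/-- the makers of all fields -/
theorem mkTH_all {P : HypD} (hP : P.NoCD) (H1 : MkTH P ZCap) (H2 : MkTH P ZFam)
    (H3 : MkTH P ZGap) (H4 : MkTH P ZMass) (H5 : MkTH P ZLight) (H6 : MkTH P ZFlow)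
    (H7 : MkTH P ZCrude) : MkTH P ZT := by
  have a6 := MkTH.and hP monoFlow monoCrude H6 H7
  have m6 := monoFlow.and monoCrude
  have a5 := MkTH.and hP monoLight m6 H5 a6
  have m5 := monoLight.and m6
  have a4 := MkTH.and hP monoMass m5 H4 a5
  have m4 := monoMass.and m5
  have a3 := MkTH.and hP monoGap m4 H3 a4
  have m3 := monoGap.and m4
  have a2 := MkTH.and hP monoFam m3 H2 a3
  have m2 := monoFam.and m3
  exact MkTH.and hP monoCap m2 H1 a2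

/-- **The bundle from the makers.** -/
theorem mkZH {P : HypD} (H : MkTH P ZT) : MkH P ZD := by
  unfold MkTH PartQ at H
  unfold MkH PartQ
  intro a ha ha1
  obtain ⟨es, hes, H⟩ := H a ha ha1
  refine ⟨es, hes, fun e0 he0 he0' => ?_⟩
  obtain ⟨k8s, hk8s, H⟩ := H e0 he0 he0'
  refine ⟨k8s, hk8s, fun k8 hk8 hk8' => ?_⟩
  obtain ⟨k3s, hk3s, H⟩ := H k8 hk8 hk8'
  refine ⟨k3s, hk3s, fun k3 hk3 hk3' => ?_⟩
  obtain ⟨gam, c1, d0, del, hgam, hc1, hd0, hdel, H⟩ := H k3 hk3 hk3'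
  refine ⟨gam, c1, d0, del, hgam, hc1, hd0, hdel,
    fun c hc hcc d hd hdd Kt e cP L hK he hcP hL => ?_⟩
  obtain ⟨CD, hCD, C, hC, H⟩ := H c hc hcc d hd hdd Kt e cP L hK he hcP hL
  refine ⟨CD, hCD, C, hC, ?_⟩
  intro t ht ht1 n ez F1 F2 F3 h1 h3 h2 o ho K hKn x ι _ _ s r U g u v hs hr hcls Q1 Q2 Q3 q1 q2 q3
    hP
  have key := H t ht ht1 n ez F1 F2 F3 h1 h3 h2 o ho K hKn x ι s r U g u v hs hr hcls Q1 Q2 Q3
    q1 q2 q3 hP
  refine ⟨fun hez x0 k hk z x1 => ?_, fun hez => ?_⟩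
  · obtain ⟨j, rfl⟩ : ∃ j, k = j + 1 := ⟨k - 1, by have := (mem_Icc.1 hk).1; omega⟩
    have hj : j < n := by have := (mem_Icc.1 hk).2; omega
    have e1 := q2.l0 j hj (ix j x0) x1 z
    have e2 : F2 (j + 1) (x0, x1, z) ^ 2 ≤
        ∑ w ∈ iv j (ix j x0), F2 (j + 1) (w, x1, z) ^ 2 :=
      single_le_sum (f := fun w => F2 (j + 1) (w, x1, z) ^ 2) (fun _ _ => sq_nonneg _)
        (mem_iv.2 rfl)
    have e3 : ez * 2 ^ j ≤ 0 := mul_nonpos_of_nonpos_of_nonneg hez (by positivity)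
    have e4 : F2 (j + 1) (x0, x1, z) = 0 :=
      pow_eq_zero_iff (two_ne_zero) |>.1 (le_antisymm (by linarith) (sq_nonneg _))
    show H677.fC v _ x0 (j + 1) z x1 = 0
    unfold H677.fC H677.kF
    rw [e4, ite_self, zero_smul]
  · obtain ⟨L', e', he', hm'⟩ := exists_lab ι
    exact ⟨L', e', he', hm', fun t0 ht0 => key hez L' e' he' hm' t0 ht0⟩

/-- the data with `lo Du u`, `lo Dv v` have `P` (exponent `d` at most `d0`) -/
def HypS (P : HypD) (Du Dv : Sel) : Prop :=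
  ∃ dS : ℝ, 0 < dS ∧ ∀ (ι : Type) [Fintype ι] [DecidableEq ι] (p : H401.Num) (K : ℕ) (x : Pt)
    (s r : ℝ) (U : Tri) (g : ℤ → ℤ → ℝ) (u v : ℤ → ℤ → ι → ℝ) (Pm κ : ℝ), 0 < p.t → p.t ≤ 1 →
    0 ≤ p.d → p.d ≤ dS → 0 < s → 1 ≤ r → ClsM K x s r Pm κ U g u v →
      P ι p K x s r U (lo (Du ι p K x s r U u) u) (lo (Dv ι p K x s r U v) v)

/-- **Makers for data with `P` serve the data after the static cuts.** -/
theorem MkH.toUV {P : HypD} {Du Dv : Sel} (hP : HypS P Du Dv) {D : Bun} (H : MkH P D) :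
    MkStUV Du Dv D := by
  obtain ⟨dS, hdS, hP⟩ := hP
  unfold MkH PartQ at H
  unfold MkStUV PartQ
  intro a ha ha1
  obtain ⟨es, hes, H⟩ := H a ha ha1
  refine ⟨es, hes, fun e0 he0 he0' => ?_⟩
  obtain ⟨k8s, hk8s, H⟩ := H e0 he0 he0'
  refine ⟨k8s, hk8s, fun k8 hk8 hk8' => ?_⟩
  obtain ⟨k3s, hk3s, H⟩ := H k8 hk8 hk8'
  refine ⟨k3s, hk3s, fun k3 hk3 hk3' => ?_⟩
  obtain ⟨gam, c1, d0, del, hgam, hc1, hd0, hdel, H⟩ := H k3 hk3 hk3'
  refine ⟨gam, c1, min d0 dS, del, hgam, hc1, lt_min hd0 hdS, hdel,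
    fun c hc hcc d hd hdd Kt e cP L hK he hcP hL => ?_⟩
  obtain ⟨CD, hCD, C, hC, H⟩ := H c hc hcc d hd (hdd.trans (min_le_left _ _)) Kt e cP L hK he hcP hL
  refine ⟨CD, hCD, C, hC, ?_⟩
  intro t ht ht1 n ez F1 F2 F3 h1 h3 h2 o ho K hKn x ι _ _ s r U g u v hs hr hcls Q1 Q2 Q3 q1 q2 q3
  exact H t ht ht1 n ez F1 F2 F3 h1 h3 h2 o ho K hKn x ι s r U g _ _ hs hr
    (ClsM_loU _ (H401.ClsM_lo _ hcls)) Q1 Q2 Q3 q1 q2 q3
    (hP ι ⟨a, e0, k8, k3, c, d, Kt, e, cP, L, CD, t⟩ K x s r U g u v _ _ ht ht1 hd.le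
      (hdd.trans (min_le_right _ _)) hs hr hcls)

/-- **The price of the gap part of the definite families, data after the static cuts.** -/
theorem cst_NZH {P : HypD} {Du Dv : Sel} (hP : P.NoCD) (hPS : HypS P Du Dv) (H1 : MkT ZCap)
    (H2 : MkT ZFam) (H3 : MkT ZGap) (H4 : MkT ZMass) (H5 : MkT ZLight) (H6 : MkT ZFlow)
    (H7 : MkTH P ZCrude) (HT : TileZ) : CStUV Du Dv NZ :=
  CStUV.of_mk (MkH.toUV hPS (mkZH (mkTH_all hP (H1.toH P) (H2.toH P) (H3.toH P) (H4.toH P)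
    (H5.toH P) (H6.toH P) H7))) (partF_NZ HT)

end

end Vale.Agent.P141.H331
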