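import Vale.Agent.P141.H609.CStep
import Vale.Agent.P141.H609.Reg1

/-!
# P141, line (A), region 3: the flow part

`A` and `C` low, third matrix `Y Aᵀ` with an arbitrary `Y`: the sum of the forms is at most
`s_A s_C` times the mass of `Y` times the capped pair sum of `A` and `C`.
-/

namespace Vale.Agent.P141.H331

open Finset Matrix Vale.Agent.P075 Vale.Agent.P141.PL Vale.Agent.P141.PL.H588
open Vale.Agent.P141.PL.H804 Vale.Agent.P141.H958 Vale.Agent.P141.H609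

noncomputable section

section mat

variable {n : Type*} [Fintype n] [DecidableEq n]

/-- The Hilbert-Schmidt norm of the product of two regularised blocks. -/
theorem cross_le {r : Matrix n n ℝ} (hr : rᵀ = r) {μ ν : ℝ} (hμ : 0 < μ) (hν : 0 < ν)
    {F H : Matrix n n ℝ} (kF : (1 - gramC μ F).PosSemidef) (kH : (1 - gramC ν H).PosSemidef)
    (a e : ℕ) :
    lw μ a * lw ν e * (((rg μ F a)ᵀ * r * rg ν H e) * ((rg μ F a)ᵀ * r * rg ν H e)ᵀ).trace ≤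
      16 * M2 r (lw ν e) (lw μ a) Hᵀ F := by
  have l0 := lw_pos hμ a
  have l1 := lw_pos hν e
  have q1 : lw μ a * lw ν e *
      (((rg μ F a)ᵀ * r * rg ν H e) * ((rg μ F a)ᵀ * r * rg ν H e)ᵀ).trace =
      (gramR (lw μ a) (rg μ F a) * (r * gramR (lw ν e) (rg ν H e) * r)).trace := by
    rw [transpose_mul, transpose_mul, transpose_transpose, hr, gramR, gramR,
      show (rg μ F a)ᵀ * r * rg ν H e * ((rg ν H e)ᵀ * (r * rg μ F a)) =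
        ((rg μ F a)ᵀ * (r * rg ν H e * (rg ν H e)ᵀ * r)) * rg μ F a by
          simp only [Matrix.mul_assoc],
      trace_mul_comm]
    simp only [Matrix.mul_smul, Matrix.smul_mul, trace_smul, smul_eq_mul, Matrix.mul_assoc]
    ring
  have q2 : (gramR (lw μ a) (rg μ F a) * (r * gramR (lw ν e) (rg ν H e) * r)).trace ≤
      (((4 : ℝ) • phi (gramR (lw μ a) F)) * (r * gramR (lw ν e) (rg ν H e) * r)).trace :=
    trace_mul_le_left (psd_conj_symm (gramR_psd l1.le _) hr) (rg_adc hμ.le kF a).2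
  have q3 : (phi (gramR (lw μ a) F) * (r * gramR (lw ν e) (rg ν H e) * r)).trace ≤
      (phi (gramR (lw μ a) F) * (r * ((4 : ℝ) • phi (gramR (lw ν e) H)) * r)).trace := by
    refine trace_mul_le_right (phi_psd (gramR_psd l0.le F)) ?_
    have := psd_conj_symm (rg_adc hν.le kH e).2 hr
    rwa [Matrix.mul_sub, Matrix.sub_mul] at this
  have q4 : (phi (gramR (lw μ a) F) * (r * ((4 : ℝ) • phi (gramR (lw ν e) H)) * r)).trace =
      4 * M2 r (lw ν e) (lw μ a) Hᵀ F := by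
    rw [M2, gramC_transpose, tr_rot]
    simp only [Matrix.smul_mul, trace_smul, smul_eq_mul]
  rw [Matrix.smul_mul, trace_smul, smul_eq_mul] at q2
  rw [q4] at q3
  rw [q1]
  linarith

/-- One node: an arbitrary `Y` against `A` and `C` both cut. -/
theorem z1_node {r : Matrix n n ℝ} (hr : rᵀ = r) {μ ν : ℝ} (hμ : 0 < μ) (hν : 0 < ν)
    {F H : Matrix n n ℝ} (kF : (1 - gramC μ F).PosSemidef) (kH : (1 - gramC ν H).PosSemidef)
    (Y : Matrix n n ℝ) (a e : ℕ) :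
    (Y * Fᵀ * lo μ F a * r * rg ν H e).trace ^ 2 ≤
      16 * (lw μ a * lw ν e)⁻¹ * ((Y * Yᵀ).trace * M2 r (lw ν e) (lw μ a) Hᵀ F) := by
  have l0 := lw_pos hμ a
  have l1 := lw_pos hν e
  have e0 : Fᵀ * lo μ F a = (rg μ F a)ᵀ := by
    rw [← lo_mul hμ.le, transpose_mul, lo_symm hμ.le]
  have e1 : (Y * Fᵀ * lo μ F a * r * rg ν H e).trace =
      (Y * ((rg μ F a)ᵀ * r * rg ν H e)).trace := by
    rw [show Y * Fᵀ * lo μ F a * r * rg ν H e = Y * (Fᵀ * lo μ F a) * r * rg ν H e by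
      simp only [Matrix.mul_assoc], e0]
    simp only [Matrix.mul_assoc]
  rw [e1]
  refine (trace_mul_sq_le _ _).trans ?_
  have nY : 0 ≤ (Y * Yᵀ).trace := (psd_mul_transpose _).trace_nonneg
  have s2 := cross_le hr hμ hν kF kH a e
  generalize (((rg μ F a)ᵀ * r * rg ν H e) * ((rg μ F a)ᵀ * r * rg ν H e)ᵀ).trace = T2 at *
  generalize (Y * Yᵀ).trace = T3 at *
  generalize M2 r (lw ν e) (lw μ a) Hᵀ F = T4 at *
  have hl : 0 < lw μ a * lw ν e := mul_pos l0 l1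
  have e5 : T3 * T2 = (lw μ a * lw ν e)⁻¹ * (T3 * (lw μ a * lw ν e * T2)) := by
    field_simp
  rw [e5]
  refine (mul_le_mul_of_nonneg_left (mul_le_mul_of_nonneg_left s2 nY)
    (inv_nonneg.2 hl.le)).trans (le_of_eq ?_)
  ring

end mat

section

variable {N : ℕ} {R : Pt} {c : ℕ → ℤ} {A C : ℕ → ℤ → ℤ → ℝ} {cA cC : ℝ}
  {s : ℕ → Finset Pt} {Y : (k : ℕ) → Pt → Matrix (Ix k) (Ix k) ℝ}

/-- **(Z1)**: `A` and `C` low, third matrix `Y Aᵀ`, `Y` arbitrary. -/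
theorem z1 (hs : ∀ k ∈ Icc 1 N, s k ⊆ bx3 N R k (c k)) (hA : 0 < cA) (hC : 0 < cC)
    (capA : ∀ k ∈ Icc 1 N, ∀ m ∈ s k, Cap k m.1 m.2.1 cA (A k))
    (capC : ∀ k ∈ Icc 1 N, ∀ m ∈ s k, Cap k m.1 m.2.2 cC (C k)) (a e : ℕ) {w r : ℝ}
    (hw : ∑ k ∈ Icc 1 N, ∑ m ∈ s k, (Y k m * (Y k m)ᵀ).trace ≤ w)
    (hr : prs N R.2.1 R.1 R.2.2 c (wp (lv cA a) (sp A)) (wp (lv cC e) (sp C)) ≤ r) :
    UW N s cA cC A C (fun k m => Y k m * (bl k (A k) m.1 m.2.1)ᵀ) a e ≤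
      6 * (cA / 2 ^ (a - 1) * (cC / 2 ^ (e - 1)) * √(w * r)) := by
  have h₀ : 0 < (cA ^ 2)⁻¹ := by positivity
  have h₂ : 0 < (cC ^ 2)⁻¹ := by positivity
  have a0 := lv_pos hA a
  have a2 := lv_pos hC e
  have hk4 : ∀ k : ℕ, (0 : ℝ) < (4 ^ k)⁻¹ := fun k => by positivity
  set P : ℕ → Pt → ℝ := fun k m => (Y k m * (Y k m)ᵀ).trace with hP
  set Q : ℕ → Pt → ℝ := fun k m => 4 ^ k * M2 (hd k) (lv cC e * (4 ^ k)⁻¹)
    (lv cA a * (4 ^ k)⁻¹) (bl k (C k) m.1 m.2.2)ᵀ (bl k (A k) m.1 m.2.1) with hQ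
  have nP : ∀ k m, 0 ≤ P k m := fun k m => (psd_mul_transpose (Y k m)).trace_nonneg
  have nQ : ∀ k m, 0 ≤ Q k m := fun k m => mul_nonneg (by positivity)
    (M2_nonneg (hd_symm _) (mul_nonneg a2.le (hk4 _).le) (mul_nonneg a0.le (hk4 _).le) _ _)
  have hQ' : ∑ k ∈ Icc 1 N, ∑ m ∈ s k, Q k m ≤ r := by
    refine le_trans (sum_le_sum fun k hk => sum_le_sum_of_subset_of_nonneg (hs k hk)
      fun m _ _ => nQ k m) ((le_of_eq ?_).trans hr)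
    exact sum_congr rfl fun k _ => (mnk_one N R k (c k) a0.le a2.le (A k) (C k)).symm
  set D : ℕ → Pt → ℝ := fun k m => (2 ^ k : ℝ)⁻¹ *
    (Y k m * (bl k (A k) m.1 m.2.1)ᵀ * lo ((cA ^ 2)⁻¹ * (4 ^ k)⁻¹) (bl k (A k) m.1 m.2.1) a *
      hd k * rg ((cC ^ 2)⁻¹ * (4 ^ k)⁻¹) (bl k (C k) m.1 m.2.2) e).trace with hD
  have hD2 : ∀ k ∈ Icc 1 N, ∀ m ∈ s k, D k m ^ 2 ≤
      36 * (cA / 2 ^ (a - 1) * (cC / 2 ^ (e - 1))) ^ 2 * (P k m * Q k m) := by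
    intro k hk m hm
    have hb := z1_node (hd_symm k) (mul_pos h₀ (hk4 k)) (mul_pos h₂ (hk4 k))
      (cap_one hA (capA k hk m hm)) (cap_one hC (capC k hk m hm)) (Y k m) a e
    simp only [lw_mul'] at hb
    have h4 : (4 : ℝ) ^ k = (2 ^ k) ^ 2 := by rw [← pow_mul, mul_comm, pow_mul]; norm_num
    have hi := inv_lv hC e
    have hi2 := inv_lv hA a
    have hpq : 0 ≤ P k m * Q k m := mul_nonneg (nP k m) (nQ k m)
    have key : D k m ^ 2 ≤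
        16 * (cA / 2 ^ (a - 1) * (cC / 2 ^ (e - 1))) ^ 2 * (P k m * Q k m) := by
      rw [hD]
      simp only
      rw [mul_pow]
      refine (mul_le_mul_of_nonneg_left hb (by positivity)).trans (le_of_eq ?_)
      rw [mul_pow, ← hi, ← hi2, hP, hQ]
      simp only
      change _ * (16 * (lv cA a * (4 ^ k)⁻¹ * (lv cC e * (4 ^ k)⁻¹))⁻¹ *
        ((Y k m * (Y k m)ᵀ).trace * M2 (hd k) (lv cC e * (4 ^ k)⁻¹)
    (lv cA a * (4 ^ k)⁻¹) (bl k (C k) m.1 m.2.2)ᵀ (bl k (A k) m.1 m.2.1))) = _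
      have h2 : (2 : ℝ) ^ k ≠ 0 := by positivity
      have h3 : lv cC e ≠ 0 := a2.ne'
      have h5 : lv cA a ≠ 0 := a0.ne'
      generalize (Y k m * (Y k m)ᵀ).trace = T
      generalize M2 (hd k) (lv cC e * (4 ^ k)⁻¹)
        (lv cA a * (4 ^ k)⁻¹) (bl k (C k) m.1 m.2.2)ᵀ (bl k (A k) m.1 m.2.1) = M
      rw [h4]
      field_simp
    refine key.trans ?_
    nlinarith [mul_nonneg (sq_nonneg (cA / 2 ^ (a - 1) * (cC / 2 ^ (e - 1)))) hpq]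
  set S : Finset (Σ _ : ℕ, Pt) := (Icc 1 N).sigma s with hS
  have sig : ∀ M : ℕ → Pt → ℝ, ∑ k ∈ Icc 1 N, ∑ m ∈ s k, M k m = ∑ i ∈ S, M i.1 i.2 :=
    fun M => by rw [hS, Finset.sum_sigma]
  have hw' : ∑ k ∈ Icc 1 N, ∑ m ∈ s k, P k m ≤ w := hw
  rw [sig] at hQ' hw'
  have hfin : ∑ k ∈ Icc 1 N, ∑ m ∈ s k, |D k m| ≤
      6 * (cA / 2 ^ (a - 1) * (cC / 2 ^ (e - 1)) * √(w * r)) := by
    rw [sig fun k m => |D k m|]
    exact core2 S (fun i => D i.1 i.2) (fun i => P i.1 i.2) (fun i => Q i.1 i.2) (by positivity)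
      (fun i _ => nP _ _) (fun i _ => nQ _ _)
      (fun i hi => hD2 i.1 (Finset.mem_sigma.1 (hS ▸ hi)).1 i.2 (Finset.mem_sigma.1 (hS ▸ hi)).2)
      hw' hQ'
  exact hfin

end

section

variable {N : ℕ} {R : Pt} {c : ℕ → ℤ} {A C : ℕ → ℤ → ℤ → ℝ} {cA cC : ℝ}
  {s : ℕ → Finset Pt} {Y : (k : ℕ) → Pt → Matrix (Ix k) (Ix k) ℝ}
  {QA QC : ℕ → ℤ → ℤ → Prop} {DA DC : ℝ}

/-- The capped pair sum of two paths (squares against squares). -/
theorem pair_paths (hc : Pl c) (hA : 0 < cA) (hC : 0 < cC)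
    (sA : L2E N R.1 R.2.1 QA A DA) (sC : L2E N R.1 R.2.2 QC C DC) (a e : ℕ) :
    prs N R.2.1 R.1 R.2.2 c (wp (lv cA a) (sp A)) (wp (lv cC e) (sp C)) ≤
      550 * (((cA / 2 ^ (a - 1)) ^ 2)⁻¹ * DA + ((cC / 2 ^ (e - 1)) ^ 2)⁻¹ * DC) := by
  have h := pairE22 (c := c) hc (sA.swap.smul (lv_pos hA a).le) (sC.swap.smul (lv_pos hC e).le)
  rw [← inv_lv hA a, ← inv_lv hC e, inv_inv, inv_inv]
  exact h

/-- **(Z1) for paths.** -/
theorem z1E (hc : Pl c) (hs : ∀ k ∈ Icc 1 N, s k ⊆ bx3 N R k (c k)) (hA : 0 < cA) (hC : 0 < cC)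
    (capA : ∀ k ∈ Icc 1 N, ∀ m ∈ s k, Cap k m.1 m.2.1 cA (A k))
    (capC : ∀ k ∈ Icc 1 N, ∀ m ∈ s k, Cap k m.1 m.2.2 cC (C k)) (a e : ℕ) {w : ℝ}
    (sA : L2E N R.1 R.2.1 QA A DA) (sC : L2E N R.1 R.2.2 QC C DC)
    (hw : ∑ k ∈ Icc 1 N, ∑ m ∈ s k, (Y k m * (Y k m)ᵀ).trace ≤ w) :
    UW N s cA cC A C (fun k m => Y k m * (bl k (A k) m.1 m.2.1)ᵀ) a e ≤
      150 * √(w * ((cC / 2 ^ (e - 1)) ^ 2 * DA + (cA / 2 ^ (a - 1)) ^ 2 * DC)) := by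
  have h := z1 hs hA hC capA capC a e hw (pair_paths hc hA hC sA sC a e)
  set x : ℝ := cA / 2 ^ (a - 1) with hx
  set y : ℝ := cC / 2 ^ (e - 1) with hy
  have px : 0 < x := by positivity
  have py : 0 < y := by positivity
  refine h.trans ?_
  have e1 : w * (550 * ((x ^ 2)⁻¹ * DA + (y ^ 2)⁻¹ * DC)) =
      ((x * y)⁻¹) ^ 2 * (550 * (w * (y ^ 2 * DA + x ^ 2 * DC))) := by
    field_simp
  rw [e1, Real.sqrt_mul (sq_nonneg _), Real.sqrt_sq (by positivity),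
    Real.sqrt_mul (by norm_num : (0 : ℝ) ≤ 550)]
  have h2 : √(550 : ℝ) ≤ 25 := by
    rw [show (25 : ℝ) = √(25 ^ 2) by rw [Real.sqrt_sq (by norm_num)]]
    exact Real.sqrt_le_sqrt (by norm_num)
  have h3 := Real.sqrt_nonneg (w * (y ^ 2 * DA + x ^ 2 * DC))
  have e2 : 6 * (x * y * ((x * y)⁻¹ * (√550 * √(w * (y ^ 2 * DA + x ^ 2 * DC))))) =
      6 * (√550 * √(w * (y ^ 2 * DA + x ^ 2 * DC))) := by
    field_simp
  rw [e2]
  nlinarith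

end

end

end Vale.Agent.P141.H331
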